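import Crest.Agent.R291.Defs

/-!
# R291/Hash: polynomial hashing, a moment bound and a good seed
-/

set_option autoImplicit false
set_option linter.unusedSectionVars false

open Finset

namespace Crest.Agent.R291

noncomputable section

variable {q : ℕ} [Fact q.Prime]

/-- The hash value. -/
def hval {N : ℕ} (a : Fin N → ZMod q) (z : ZMod q) : ZMod q := ∑ k, a k * z ^ (k : ℕ)

lemma hval_add {N : ℕ} (a e : Fin N → ZMod q) (c z : ZMod q) :
    hval (a + c • e) z = hval a z + c * hval e z := by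
  simp only [hval, Pi.add_apply, Pi.smul_apply, smul_eq_mul, add_mul, sum_add_distrib, mul_sum,
    mul_assoc]

lemma sum_prod_eq_zero {N : ℕ} (γ : ZMod q → ℝ) (hγ : ∑ v, γ v = 0) (z : Fin N → ZMod q)
    (i : Fin N) (hi : ∀ j, j ≠ i → z j ≠ z i) :
    ∑ a : Fin N → ZMod q, ∏ j, γ (hval a (z j)) = 0 := by
  classical
  set P : Polynomial (ZMod q) := ∏ j ∈ univ.erase i, (Polynomial.X - Polynomial.C (z j)) with hP
  have hdeg : P.natDegree < N := by
    rw [hP, Polynomial.natDegree_finsetProd_X_sub_C_eq_card, card_erase_of_mem (mem_univ i),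
      card_univ, Fintype.card_fin]
    have := i.2
    omega
  set e : Fin N → ZMod q := fun k => P.coeff k with he
  have hev : ∀ w, hval e w = ∏ j ∈ univ.erase i, (w - z j) := by
    intro w
    have := Polynomial.eval_eq_sum_range' hdeg w
    rw [Finset.sum_range] at this
    rw [hval, ← this, hP, Polynomial.eval_prod]
    simp
  have h0 : ∀ j, j ≠ i → hval e (z j) = 0 := fun j hj => by
    rw [hev]; exact prod_eq_zero (mem_erase.2 ⟨hj, mem_univ j⟩) (sub_self _)
  have h1 : hval e (z i) ≠ 0 := by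
    rw [hev]
    exact prod_ne_zero_iff.2 fun j hj => sub_ne_zero.2 (hi j (ne_of_mem_erase hj)).symm
  have key : ∑ c : ZMod q, ∑ a : Fin N → ZMod q, ∏ j, γ (hval (a + c • e) (z j)) = 0 := by
    rw [sum_comm]
    refine sum_eq_zero fun a _ => ?_
    have : ∀ c : ZMod q, ∏ j, γ (hval (a + c • e) (z j)) =
        γ (hval a (z i) + c * hval e (z i)) * ∏ j ∈ univ.erase i, γ (hval a (z j)) := by
      intro c
      rw [← mul_prod_erase univ _ (mem_univ i), hval_add]
      congr 1
      exact prod_congr rfl fun j hj => by rw [hval_add, h0 j (ne_of_mem_erase hj)]; simp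
    simp only [this]
    rw [← sum_mul]
    have : ∑ c : ZMod q, γ (hval a (z i) + c * hval e (z i)) = ∑ v, γ v :=
      Fintype.sum_equiv ((Equiv.mulRight₀ _ h1).trans (Equiv.addLeft (hval a (z i)))) _ _
        fun c => rfl
    rw [this, hγ, zero_mul]
  have : ∀ c : ZMod q, ∑ a : Fin N → ZMod q, ∏ j, γ (hval (a + c • e) (z j)) =
      ∑ a : Fin N → ZMod q, ∏ j, γ (hval a (z j)) := fun c =>
    Fintype.sum_equiv (Equiv.addRight (c • e)) _ _ fun a => rfl
  simp only [this] at key
  rw [sum_const, card_univ, nsmul_eq_mul] at key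
  have hq : ((Fintype.card (ZMod q) : ℕ) : ℝ) ≠ 0 := by exact_mod_cast Fintype.card_ne_zero
  exact (mul_eq_zero.1 key).resolve_left hq

/-- Tuples in which every value is repeated. -/
lemma card_rep {Y : Type} [Fintype Y] [DecidableEq Y] [Nonempty Y] (l : ℕ) :
    (univ.filter (fun y : Fin (2 * l) → Y => ∀ i, ∃ j, j ≠ i ∧ y j = y i)).card ≤
      Fintype.card Y ^ l * l ^ (2 * l) := by
  classical
  have hsub : univ.filter (fun y : Fin (2 * l) → Y => ∀ i, ∃ j, j ≠ i ∧ y j = y i) ⊆
      univ.biUnion (fun e : Fin l → Y => Fintype.piFinset fun _ => univ.image e) := by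
    intro y hy
    have hy := (mem_filter.1 hy).2
    have hc : (univ.image y).card ≤ l := by
      have h1 : 2 * (univ.image y).card ≤ (univ : Finset (Fin (2 * l))).card := by
        refine mul_card_image_le_card (f := y) univ 2 fun v hv => ?_
        obtain ⟨i, -, rfl⟩ := mem_image.1 hv
        obtain ⟨j, hj, hj'⟩ := hy i
        exact one_lt_card.2 ⟨j, by simp [hj'], i, by simp, hj⟩
      rw [card_univ, Fintype.card_fin] at h1
      omega
    refine mem_biUnion.2 ⟨fun k => (univ.image y).toList.getD k (Classical.arbitrary Y),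
      mem_univ _, Fintype.mem_piFinset.2 fun i => ?_⟩
    have hm : y i ∈ (univ.image y).toList := mem_toList.2 (mem_image_of_mem y (mem_univ i))
    obtain ⟨k, hk, hk'⟩ := List.getElem_of_mem hm
    rw [length_toList] at hk
    refine mem_image.2 ⟨⟨k, by omega⟩, mem_univ _, ?_⟩
    simp only
    rw [List.getD_eq_getElem _ _ (by rw [length_toList]; exact hk), hk']
  refine (card_le_card hsub).trans (card_biUnion_le.trans ?_)
  calc _ ≤ ∑ _e : Fin l → Y, l ^ (2 * l) := by
        refine sum_le_sum fun e _ => ?_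
        rw [Fintype.card_piFinset, prod_const, card_univ, Fintype.card_fin]
        exact Nat.pow_le_pow_left (card_image_le.trans (by simp)) _
    _ = _ := by simp

lemma moment {Y : Type} [Fintype Y] [DecidableEq Y] [Nonempty Y] (e : Y → ZMod q)
    (he : Function.Injective e) (γ : ZMod q → ℝ) (hγ : ∑ v, γ v = 0) (hγ1 : ∀ v, |γ v| ≤ 1)
    (l : ℕ) (Z : Y → Prop) :
    ∑ a : Fin (2 * l) → ZMod q, (∑ y, ind (Z y) * γ (hval a (e y))) ^ (2 * l) ≤
      ∑ _a : Fin (2 * l) → ZMod q, ((Fintype.card Y : ℝ) ^ l * (l : ℝ) ^ (2 * l)) := by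
  classical
  have e1 : ∀ a : Fin (2 * l) → ZMod q, (∑ y, ind (Z y) * γ (hval a (e y))) ^ (2 * l) =
      ∑ y : Fin (2 * l) → Y, (∏ j, ind (Z (y j))) * ∏ j, γ (hval a (e (y j))) := by
    intro a
    rw [Fintype.sum_pow]
    exact sum_congr rfl fun y _ => prod_mul_distrib
  simp only [e1]
  rw [sum_comm]
  set R := univ.filter (fun y : Fin (2 * l) → Y => ∀ i, ∃ j, j ≠ i ∧ y j = y i) with hR
  calc _ ≤ ∑ y : Fin (2 * l) → Y, ∑ _a : Fin (2 * l) → ZMod q, (if y ∈ R then (1 : ℝ) else 0) := by
        refine sum_le_sum fun y _ => ?_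
        by_cases h : y ∈ R
        · refine sum_le_sum fun a _ => ?_
          rw [if_pos h]
          refine (le_abs_self _).trans ?_
          rw [abs_mul, abs_prod, abs_prod]
          refine mul_le_one₀ (prod_le_one (fun j _ => abs_nonneg _) fun j _ => ?_)
            (prod_nonneg fun j _ => abs_nonneg _)
            (prod_le_one (fun j _ => abs_nonneg _) fun j _ => hγ1 _)
          rw [abs_of_nonneg (ind_nonneg _)]; exact ind_le_one _
        · simp only [hR, mem_filter, mem_univ, true_and, not_forall, not_exists, not_and] at h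
          obtain ⟨i, hi⟩ := h
          rw [← mul_sum, sum_prod_eq_zero γ hγ (fun j => e (y j)) i
            (fun j hj h => hi j hj (he h)), mul_zero]
          exact sum_nonneg fun a _ => by split_ifs <;> norm_num
    _ = ∑ _a : Fin (2 * l) → ZMod q, (R.card : ℝ) := by
        rw [sum_comm]
        refine sum_congr rfl fun a _ => ?_
        rw [← sum_filter]; simp
    _ ≤ _ := sum_le_sum fun a _ => by exact_mod_cast card_rep l

/-- A seed that is good for all tests of a small family. -/
theorem exists_seed {Y : Type} [Fintype Y] [DecidableEq Y] [Nonempty Y] (e : Y → ZMod q)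
    (he : Function.Injective e) (γ : ZMod q → ℝ) (hγ : ∑ v, γ v = 0) (hγ1 : ∀ v, |γ v| ≤ 1)
    (l : ℕ) (hl : 1 ≤ l) {ι : Type} (tests : Finset ι) (Z : ι → Y → Prop) {R S : ℝ} (hR : 0 ≤ R)
    (hS : 0 ≤ S) (hcard : (tests.card : ℝ) ≤ R ^ (2 * l)) (hY : (Fintype.card Y : ℝ) ≤ S ^ 2) :
    ∃ a : Fin (2 * l) → ZMod q, ∀ i ∈ tests,
      |∑ y, ind (Z i y) * γ (hval a (e y))| ≤ R * S * l := by
  have h1 : ∑ a : Fin (2 * l) → ZMod q,
      ∑ i ∈ tests, (∑ y, ind (Z i y) * γ (hval a (e y))) ^ (2 * l) ≤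
      ∑ _a : Fin (2 * l) → ZMod q, (R * S * l) ^ (2 * l) := by
    rw [sum_comm]
    refine (sum_le_sum fun i _ => moment e he γ hγ hγ1 l (Z i)).trans ?_
    rw [sum_comm]
    refine sum_le_sum fun a _ => ?_
    rw [sum_const, nsmul_eq_mul, mul_pow, mul_pow, mul_assoc]
    refine mul_le_mul hcard (mul_le_mul_of_nonneg_right ?_ (by positivity)) (by positivity)
      (by positivity)
    rw [pow_mul]
    exact pow_le_pow_left₀ (by positivity) hY _
  obtain ⟨a, -, ha⟩ := exists_le_of_sum_le univ_nonempty h1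
  refine ⟨a, fun i hi => ?_⟩
  have h2 : (∑ y, ind (Z i y) * γ (hval a (e y))) ^ (2 * l) ≤ (R * S * l) ^ (2 * l) :=
    le_trans (single_le_sum (f := fun i => (∑ y, ind (Z i y) * γ (hval a (e y))) ^ (2 * l))
      (fun i _ => (even_two_mul l).pow_nonneg _) hi) ha
  rw [← (even_two_mul l).pow_abs] at h2
  exact le_of_pow_le_pow_left₀ (by omega) (by positivity) h2

end

end Crest.Agent.R291
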