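import Crest.Agent.R291.Defs
import Crest.Agent.Lib.PT.All

/-!
# R291/Lang: the language
-/

set_option autoImplicit false

open Finset
open Crest.Agent.Lib.PT Crest.Enc

namespace Crest.Agent.R291

/-- The number whose digits are the parities of the first `t` blocks of length `b`. -/
def zOf (t b : ℕ) (r : List Bool) : ℕ :=
  ∑ j ∈ range t, ((∑ i ∈ range b, (r.getD (j * b + i) false).toNat) % 2) * 2 ^ j

/-- Value of the polynomial with coefficient list `as`. -/
def polyOf (as : List ℕ) (z : ℕ) : ℕ := ∑ k ∈ range as.length, as.getD k 0 * z ^ k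

/-- The hash value of an input. -/
def hashOf (w : List Bool) : ℕ :=
  polyOf ((parseList parseNat w).1.drop 3)
    (zOf (min ((parseList parseNat w).1.getD 0 0) w.length)
      (min ((parseList parseNat w).1.getD 1 0) w.length) (parseList parseNat w).2) %
    (parseList parseNat w).1.getD 2 0

/-- The language. -/
def Lang : Set (List Bool) := {w | hashOf w % 2 = 1}

theorem zOf_pt {α : Type} [Enc α] {t b : α → ℕ} {r : α → List Bool} (ht : PT t) (ht' : PB t)
    (hb : PT b) (hb' : PB b) (hr : PT r) : PT fun a => zOf (t a) (b a) (r a) := by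
  unfold zOf
  refine PT.sum_range' (by fun_prop) ht ht' (PT.nat_mul ?_ ?_)
  · fun_prop
  · exact PT.nat_pow (by fun_prop) (by fun_prop) (PB.idx (n := t) ht')

theorem polyOf_pt {α : Type} [Enc α] {as : α → List ℕ} {z : α → ℕ} (ha : PT as) (hz : PT z) :
    PT fun a => polyOf (as a) (z a) := by
  unfold polyOf
  refine PT.sum_range' (by fun_prop) (by fun_prop) (by fun_prop) (PT.nat_mul ?_ ?_)
  · fun_prop
  · exact PT.nat_pow (by fun_prop) (by fun_prop)
      (PB.idx (n := fun a => (as a).length) (by fun_prop))

theorem hashOf_pt : PT hashOf := by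
  have h : PT fun w : List Bool => parseList parseNat w :=
    PT.parseList (p := fun _ => parseNat) (by fun_prop) (fun _ => shrinks_parseNat) (by fun_prop)
  unfold hashOf
  refine PT.nat_mod (polyOf_pt (by fun_prop) (zOf_pt (by fun_prop) ?_ (by fun_prop) ?_
    (by fun_prop))) (by fun_prop)
  · exact PB.min_right _ (by fun_prop)
  · exact PB.min_right _ (by fun_prop)

theorem lang_inP : Crest.Complexity.InP Lang := by
  have := hashOf_pt
  exact PT.inP (by unfold Lang; simp only [Set.mem_ofPred_eq]; fun_prop)

lemma hashOf_code (t b q : ℕ) (as : List ℕ) (r : List Bool) (ht : t ≤ r.length)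
    (hb : b ≤ r.length) :
    hashOf (listCode (t :: b :: q :: as) ++ r) = polyOf as (zOf t b r) % q := by
  unfold hashOf
  rw [parseList_listCode]
  have h1 : min t (listCode (t :: b :: q :: as) ++ r).length = t :=
    min_eq_left (by rw [List.length_append]; omega)
  have h2 : min b (listCode (t :: b :: q :: as) ++ r).length = b :=
    min_eq_left (by rw [List.length_append]; omega)
  simp only [List.getD_cons_zero, List.getD_cons_succ, List.drop_succ_cons, List.drop_zero, h1, h2]

lemma length_listCode_le (l : List ℕ) (m : ℕ) (h : ∀ a ∈ l, a < 2 ^ m) (hl : l.length < 2 ^ m) :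
    (listCode l).length ≤ (l.length + 1) * (2 * m + 2) := by
  have key : ∀ a, a < 2 ^ m → (natCode a).length ≤ 2 * m + 2 := fun a ha => by
    rw [length_natCode]
    have := Nat.size_le.2 ha
    omega
  have h2 : ∀ l : List ℕ, (∀ a ∈ l, a < 2 ^ m) →
      (l.map natCode).flatten.length ≤ l.length * (2 * m + 2) := by
    intro l h
    induction l with
    | nil => simp
    | cons a l ih =>
      have := ih fun a ha => h a (List.mem_cons_of_mem _ ha)
      have := key a (h a List.mem_cons_self)
      simp only [List.map_cons, List.flatten_cons, List.length_append, List.length_cons]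
      nlinarith
  have := h2 l h
  have := key _ hl
  unfold listCode
  rw [List.length_append]
  nlinarith

end Crest.Agent.R291
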