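import Crest.Agent.R291.Width
import Crest.Agent.R291.Hash
import Crest.Agent.R291.Lang
import Crest.Prelude.Def_Depth3

/-!
# R291/Core: from the correlation bound to circuits
-/

set_option autoImplicit false
set_option linter.unusedSectionVars false

open Finset
open Crest.Depth3 Crest.Enc

namespace Crest.Agent.R291

noncomputable section

variable {t b : ℕ}

lemma count_viol {V : Type} [Fintype V] [DecidableEq V] (P : (V → Bool) → Prop) (U : Finset V)
    (hP : ∀ x x', P x → P x' → ∀ v ∈ U, x v = x' v) {k : ℕ} (hk : k ≤ U.card) :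
    ∑ x, ind (P x) ≤ 2 ^ Fintype.card V / 2 ^ k := by
  classical
  by_cases h : ∃ x0, P x0
  · obtain ⟨x0, h0⟩ := h
    have h1 : (univ.filter P).card ≤ 2 ^ (Fintype.card V - U.card) := by
      rw [← card_compl, ← card_cube Uᶜ x0]
      refine card_le_card fun x hx => mem_cube.2 fun v hv => ?_
      exact hP x x0 (mem_filter.1 hx).2 h0 v (by simpa using hv)
    have h2 : ∑ x, ind (P x) = ((univ.filter P).card : ℝ) := by
      simp only [ind_eq_ite]
      rw [← sum_filter]; simp
    have h3 : U.card ≤ Fintype.card V := card_le_univ U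
    rw [h2, le_div_iff₀ (by positivity)]
    have h4 : (univ.filter P).card * 2 ^ k ≤ 2 ^ Fintype.card V := by
      calc _ ≤ 2 ^ (Fintype.card V - U.card) * 2 ^ k := Nat.mul_le_mul_right _ h1
        _ = 2 ^ (Fintype.card V - U.card + k) := by rw [pow_add]
        _ ≤ _ := Nat.pow_le_pow_right (by norm_num) (by omega)
    exact_mod_cast h4
  · rw [sum_eq_zero fun x _ => ind_false fun hx => h ⟨x, hx⟩]
    positivity

/-- The circuit-side counting. -/
theorem circuit_bound {n : ℕ} (c : Circuit n) (X : (Var t b → Bool) → Fin n → Bool)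
    (pos : Var t b → ℕ) (hX1 : ∀ x v (i : Fin n), pos v = i → X x i = x v)
    (hX2 : ∀ x x' (i : Fin n), (∀ v, pos v ≠ i) → X x i = X x' i)
    (G : (Var t b → Bool) → ℝ) {c0 : ℝ} (hc1 : c0 ≤ 1 / 2)
    (hG : ∀ x, G x = ind (c.eval (X x)) - c0) {k : ℕ} {η : ℝ}
    (hη : ∀ (vars : ℕ → Finset (Var t b)) (viol : ℕ → (Var t b → Bool) → Prop),
      (∀ i x x', (∀ v ∈ vars i, x' v = x v) → viol i x → viol i x') → (∀ i, (vars i).card ≤ k) →
      ∀ C : ℕ, |∑ x, ind (∀ i < C, ¬ viol i x) * G x| ≤ η * 2 ^ (t * b)) :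
    c0 ≤ η + c.mid * (2 * (η + c.bot / 2 ^ k)) := by
  classical
  have hcard : Fintype.card (Var t b) = t * b := by simp
  have h2 : (0 : ℝ) < 2 ^ (t * b) := by positivity
  have hsum1 : ∑ _x : Var t b → Bool, (1 : ℝ) = 2 ^ (t * b) := by simp
  set sat : Fin c.bot → (Fin n → Bool) → Prop :=
    fun g y => c.one g = true ∨ ∃ l ∈ c.lits g, y l.1 = l.2 with hsat
  set vs : Fin c.bot → Finset (Var t b) :=
    fun g => univ.filter fun v => ∃ l ∈ c.lits g, pos v = (l.1 : ℕ) with hvs
  have hdep : ∀ g x x', (∀ v ∈ vs g, x' v = x v) → ¬ sat g (X x) → ¬ sat g (X x') := by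
    intro g x x' h hx hx'
    refine hx (hx'.imp id ?_)
    rintro ⟨l, hl, hl'⟩
    refine ⟨l, hl, ?_⟩
    rw [← hl']
    by_cases hv : ∃ v, pos v = (l.1 : ℕ)
    · obtain ⟨v, hv⟩ := hv
      rw [hX1 x v _ hv, hX1 x' v _ hv, h v (mem_filter.2 ⟨mem_univ _, l, hl, hv⟩)]
    · exact hX2 x x' _ fun v h => hv ⟨v, h⟩
  have hwide : ∀ g, k < (vs g).card → ∑ x, ind (¬ sat g (X x)) ≤ 2 ^ (t * b) / 2 ^ k := by
    intro g hg
    rw [← hcard]
    refine count_viol _ (vs g) (fun x x' hx hx' v hv => ?_) hg.le
    obtain ⟨l, hl, hv⟩ := (mem_filter.1 hv).2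
    have a1 : X x l.1 ≠ l.2 := fun h => hx (Or.inr ⟨l, hl, h⟩)
    have a2 : X x' l.1 ≠ l.2 := fun h => hx' (Or.inr ⟨l, hl, h⟩)
    rw [hX1 x v _ hv] at a1
    rw [hX1 x' v _ hv] at a2
    revert a1 a2
    cases x v <;> cases x' v <;> cases l.2 <;> simp
  -- density of the language
  have hL : (c0 - η) * 2 ^ (t * b) ≤ ∑ x, ind (c.eval (X x)) := by
    have := hη (fun _ => ∅) (fun _ _ => False) (fun _ _ _ _ h => h) (by simp) 0
    simp only [Nat.not_lt_zero, not_false_eq_true, implies_true, ind_true trivial, one_mul, hG]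
      at this
    rw [sum_sub_distrib, sum_const, card_univ, nsmul_eq_mul] at this
    simp only [Fintype.card_fun, Fintype.card_bool, hcard] at this
    push_cast at this
    have := (abs_le.1 this).1
    linarith
  -- one middle gate
  have hmid : ∀ h : Fin c.mid, ∑ x, ind (∀ g ∈ c.reads h, sat g (X x)) ≤
      2 * (η + c.bot / 2 ^ k) * 2 ^ (t * b) := by
    intro h
    set f : (Var t b → Bool) → Prop := fun x => ∀ g ∈ c.reads h, sat g (X x) with hf
    set f' : (Var t b → Bool) → Prop :=
      fun x => ∀ g ∈ c.reads h, (vs g).card ≤ k → sat g (X x) with hf'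
    have h1 := hη (fun i => if hi : i < c.bot then
        (if (vs ⟨i, hi⟩).card ≤ k then vs ⟨i, hi⟩ else ∅) else ∅)
      (fun i x => ∃ hi : i < c.bot, (⟨i, hi⟩ : Fin c.bot) ∈ c.reads h ∧ (vs ⟨i, hi⟩).card ≤ k ∧
        ¬ sat ⟨i, hi⟩ (X x)) (by
        rintro i x x' hx ⟨hi, h1, h2, h3⟩
        simp only [dif_pos hi, if_pos h2] at hx
        exact ⟨hi, h1, h2, hdep _ x x' hx h3⟩) (by
        intro i
        split_ifs with h1 h2
        · exact h2
        · simp
        · simp) c.bot
    have e1 : ∀ x, (∀ i < c.bot, ¬ ∃ hi : i < c.bot, (⟨i, hi⟩ : Fin c.bot) ∈ c.reads h ∧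
        (vs ⟨i, hi⟩).card ≤ k ∧ ¬ sat ⟨i, hi⟩ (X x)) ↔ f' x := by
      intro x
      constructor
      · intro H g hg hk
        by_contra hc
        exact H g g.2 ⟨g.2, hg, hk, hc⟩
      · rintro H i _ ⟨hi, h1, h2, h3⟩
        exact h3 (H _ h1 h2)
    simp only [e1] at h1
    have h3 : ∀ x, ind (f x) / 2 ≤ ind (f' x) * G x +
        ∑ g : Fin c.bot, ind (k < (vs g).card) * ind (¬ sat g (X x)) := by
      intro x
      have hs : 0 ≤ ∑ g : Fin c.bot, ind (k < (vs g).card) * ind (¬ sat g (X x)) :=
        sum_nonneg fun g _ => mul_nonneg (ind_nonneg _) (ind_nonneg _)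
      by_cases hx : f x
      · rw [ind_true hx, ind_true (P := f' x) (fun g hg _ => hx g hg), hG,
          ind_true (P := c.eval (X x)) ⟨h, hx⟩]
        linarith
      · rw [ind_false hx]
        by_cases hx' : f' x
        · have : ∃ g ∈ c.reads h, ¬ sat g (X x) := by
            by_contra hc
            exact hx fun g hg => by
              by_contra hc'
              exact hc ⟨g, hg, hc'⟩
          obtain ⟨g, hg, hg'⟩ := this
          have hk : k < (vs g).card := by
            by_contra hc
            exact hg' (hx' g hg (not_lt.1 hc))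
          have := single_le_sum (f := fun g : Fin c.bot =>
            ind (k < (vs g).card) * ind (¬ sat g (X x)))
            (fun g _ => mul_nonneg (ind_nonneg _) (ind_nonneg _)) (mem_univ g)
          simp only [ind_true hk, ind_true hg', one_mul] at this
          rw [ind_true hx', hG]
          have := ind_nonneg (c.eval (X x))
          linarith
        · rw [ind_false hx']; linarith
    have h4 := sum_le_sum fun x (_ : x ∈ univ) => h3 x
    rw [sum_add_distrib, ← sum_div, sum_comm] at h4
    have h5 : ∑ g : Fin c.bot, ∑ x, ind (k < (vs g).card) * ind (¬ sat g (X x)) ≤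
        c.bot * (2 ^ (t * b) / 2 ^ k) := by
      calc _ ≤ ∑ _g : Fin c.bot, (2 : ℝ) ^ (t * b) / 2 ^ k := by
            refine sum_le_sum fun g _ => ?_
            rw [← mul_sum]
            by_cases hg : k < (vs g).card
            · rw [ind_true hg, one_mul]; exact hwide g hg
            · rw [ind_false hg, zero_mul]; positivity
        _ = _ := by simp
    have h6 := (abs_le.1 h1).2
    have e2 : 2 * (η + c.bot / 2 ^ k) * 2 ^ (t * b) =
        2 * (η * 2 ^ (t * b) + c.bot * (2 ^ (t * b) / 2 ^ k)) := by ring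
    rw [e2]
    linarith
  have hall : ∑ x, ind (c.eval (X x)) ≤ c.mid * (2 * (η + c.bot / 2 ^ k) * 2 ^ (t * b)) := by
    calc _ ≤ ∑ x, ∑ h : Fin c.mid, ind (∀ g ∈ c.reads h, sat g (X x)) := by
          refine sum_le_sum fun x _ => ?_
          by_cases hx : c.eval (X x)
          · obtain ⟨h, hh⟩ := hx
            rw [ind_true ⟨h, hh⟩, ← ind_true (P := ∀ g ∈ c.reads h, sat g (X x)) hh]
            exact single_le_sum (f := fun h : Fin c.mid => ind (∀ g ∈ c.reads h, sat g (X x)))
              (fun _ _ => ind_nonneg _) (mem_univ h)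
          · rw [ind_false hx]; exact sum_nonneg fun _ _ => ind_nonneg _
      _ ≤ ∑ _h : Fin c.mid, 2 * (η + c.bot / 2 ^ k) * 2 ^ (t * b) := by
          rw [sum_comm]; exact sum_le_sum fun h _ => hmid h
      _ = _ := by simp
  have : (c0 - η) * 2 ^ (t * b) ≤ c.mid * (2 * (η + c.bot / 2 ^ k)) * 2 ^ (t * b) := by
    rw [mul_assoc]; exact hL.trans hall
  have := le_of_mul_le_mul_right this h2
  linarith

/-- The number with binary digits `y`. -/
def zval (y : Fin t → Bool) : ℕ := ∑ j, (y j).toNat * 2 ^ (j : ℕ)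

lemma zval_eq (y : Fin t → Bool) :
    zval y = finFunctionFinEquiv (fun j => (⟨(y j).toNat, Bool.toNat_lt _⟩ : Fin 2)) := by
  rw [finFunctionFinEquiv_apply]; rfl

lemma zval_lt (y : Fin t → Bool) : zval y < 2 ^ t := by rw [zval_eq]; exact Fin.is_lt _

lemma zval_inj : Function.Injective (zval (t := t)) := by
  intro y y' h
  rw [zval_eq, zval_eq] at h
  have := finFunctionFinEquiv.injective (Fin.ext h)
  funext j
  have := congrArg (fun f => (f j : ℕ)) this
  revert this
  simp only
  cases y j <;> cases y' j <;> simp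

lemma sum_odd (q : ℕ) [NeZero q] : ∑ v : ZMod q, ind (v.val % 2 = 1) = ((q / 2 : ℕ) : ℝ) := by
  have h1 : ∑ v : ZMod q, ind (v.val % 2 = 1) = ∑ i ∈ range q, ind (i % 2 = 1) := by
    refine sum_bij (fun v _ => v.val) (fun v _ => mem_range.2 (ZMod.val_lt v))
      (fun v _ v' _ h => ZMod.val_injective q h) (fun i hi => ⟨(i : ZMod q), mem_univ _, ?_⟩)
      fun _ _ => rfl
    exact ZMod.val_cast_of_lt (mem_range.1 hi)
  rw [h1]
  clear h1
  generalize q = m
  induction m with
  | zero => simp
  | succ m ih =>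
    rw [sum_range_succ, ih]
    by_cases h : m % 2 = 1
    · rw [ind_true h, show (m + 1) / 2 = m / 2 + 1 by omega]; push_cast; ring
    · rw [ind_false h, show (m + 1) / 2 = m / 2 by omega]; ring

/-- The structured inputs of length `n`. -/
theorem exists_input {n q N : ℕ} [Fact q.Prime] (ht : 1 ≤ t) (hb : 1 ≤ b) (a : Fin N → ZMod q)
    (hn : (listCode (t :: b :: q :: List.ofFn fun k => (a k).val)).length + t * b ≤ n) :
    ∃ (X : (Var t b → Bool) → Fin n → Bool) (pos : Var t b → ℕ),
      (∀ x v (i : Fin n), pos v = i → X x i = x v) ∧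
      (∀ x x' (i : Fin n), (∀ v, pos v ≠ i) → X x i = X x' i) ∧
      ∀ x, List.ofFn (X x) ∈ Lang ↔ (hval a (zval (par x) : ZMod q)).val % 2 = 1 := by
  classical
  set pre := listCode (t :: b :: q :: List.ofFn fun k => (a k).val) with hpre
  set pos : Var t b → ℕ := fun v => pre.length + (v.1 * b + v.2) with hpos
  have hlt : ∀ v : Var t b, (v.1 : ℕ) * b + v.2 < t * b := by
    intro v
    have h1 := v.1.2
    have h2 := v.2.2
    calc (v.1 : ℕ) * b + v.2 < v.1 * b + b := by omega
      _ = (v.1 + 1) * b := by ring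
      _ ≤ t * b := Nat.mul_le_mul_right _ h1
  have hinj : Function.Injective pos := by
    intro v w h
    simp only [hpos, Nat.add_left_cancel_iff] at h
    have h1 : ((v.1 : ℕ) * b + v.2) / b = v.1 := by
      rw [mul_comm, Nat.mul_add_div (by omega), Nat.div_eq_of_lt v.2.2]; rfl
    have h2 : ((w.1 : ℕ) * b + w.2) / b = w.1 := by
      rw [mul_comm, Nat.mul_add_div (by omega), Nat.div_eq_of_lt w.2.2]; rfl
    have h3 : (v.1 : ℕ) = w.1 := by rw [← h1, ← h2, h]
    rw [h3] at h
    exact Prod.ext (Fin.ext h3) (Fin.ext (by omega))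
  set X : (Var t b → Bool) → Fin n → Bool :=
    fun x i => if h : ∃ v, pos v = i then x h.choose else pre.getD i false with hX
  have hX1 : ∀ x v (i : Fin n), pos v = i → X x i = x v := by
    intro x v i h
    have h' : ∃ v, pos v = i := ⟨v, h⟩
    simp only [hX, dif_pos h']
    rw [hinj (h'.choose_spec.trans h.symm)]
  refine ⟨X, pos, hX1, fun x x' i h => ?_, fun x => ?_⟩
  · have h' : ¬ ∃ v, pos v = i := fun ⟨v, hv⟩ => h v hv
    simp only [hX, dif_neg h']
  · set r := (List.ofFn (X x)).drop pre.length with hr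
    have hsplit : List.ofFn (X x) = pre ++ r := by
      rw [hr]
      conv_lhs => rw [← List.take_append_drop pre.length (List.ofFn (X x))]
      congr 1
      refine List.ext_getElem (by simp; omega) fun i h1 h2 => ?_
      rw [List.getElem_take, List.getElem_ofFn]
      have h' : ¬ ∃ v, pos v = i := by
        rintro ⟨v, hv⟩
        simp only [hpos] at hv
        omega
      simp only [hX, dif_neg h']
      exact List.getD_eq_getElem _ _ h2
    have hrl : r.length = n - pre.length := by simp [hr]
    have htb : t ≤ t * b := Nat.le_mul_of_pos_right _ hb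
    have hbt : b ≤ t * b := Nat.le_mul_of_pos_left _ ht
    have hget : ∀ v : Var t b, r.getD (v.1 * b + v.2) false = x v := by
      intro v
      have := hlt v
      rw [List.getD_eq_getElem _ _ (by omega)]
      simp only [hr, List.getElem_drop, List.getElem_ofFn]
      exact hX1 x v _ rfl
    have hz : zOf t b r = zval (par x) := by
      rw [zOf, zval, Finset.sum_range]
      refine sum_congr rfl fun j _ => ?_
      congr 1
      rw [Finset.sum_range]
      have : ∀ i : Fin b, r.getD (j * b + i) false = x (j, i) := fun i => hget (j, i)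
      simp only [this, par]
      rcases Nat.mod_two_eq_zero_or_one (∑ i : Fin b, (x (j, i)).toNat) with h | h <;> simp [h]
    have hp : ∀ z : ℕ, polyOf (List.ofFn fun k => (a k).val) z % q = (hval a (z : ZMod q)).val := by
      intro z
      rw [← ZMod.val_natCast]
      congr 1
      rw [polyOf, hval, List.length_ofFn, Finset.sum_range]
      push_cast
      refine sum_congr rfl fun k _ => ?_
      rw [List.getD_eq_getElem _ _ (by simp), List.getElem_ofFn]
      simp
    rw [hsplit, Lang, Set.mem_ofPred_eq, hpre, hashOf_code _ _ _ _ _ (by omega) (by omega), hz, hp]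

end

end Crest.Agent.R291
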