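import Crest.Agent.R291.Defs

/-!
# R291/Cube: subcubes with one live variable per block
-/

set_option autoImplicit false

open Finset

namespace Crest.Agent.R291

noncomputable section

variable {t b : ℕ}

/-- Variables. -/
abbrev Var (t b : ℕ) := Fin t × Fin b

/-- At most one variable per block. -/
def IsSel (T : Finset (Var t b)) : Prop := ∀ v ∈ T, ∀ w ∈ T, v.1 = w.1 → v = w

open Classical in
/-- The partial selections. -/
def Sel (t b : ℕ) : Finset (Finset (Var t b)) := univ.filter IsSel

lemma mem_Sel {T : Finset (Var t b)} : T ∈ Sel t b ↔ IsSel T := by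
  classical
  simp [Sel]

lemma IsSel.mono {T T' : Finset (Var t b)} (h : IsSel T) (hs : T' ⊆ T) : IsSel T' :=
  fun v hv w hw e => h v (hs hv) w (hs hw) e

lemma sum_Sel (z : ℝ) : ∑ T ∈ Sel t b, z ^ T.card = (1 + b * z) ^ t := by
  classical
  have h1 : (1 + b * z) ^ t = ∏ _j : Fin t, ∑ o : Option (Fin b), (if o = none then 1 else z) := by
    rw [prod_const, card_univ, Fintype.card_fin, Fintype.sum_option]
    simp
  rw [h1, Finset.prod_univ_sum, Fintype.piFinset_univ]
  symm
  refine Finset.sum_bij (fun τ _ => univ.filter (fun v : Var t b => τ v.1 = some v.2)) ?_ ?_ ?_ ?_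
  · intro τ _
    rw [mem_Sel]
    intro v hv w hw e
    simp only [mem_filter, mem_univ, true_and] at hv hw
    rw [e, hw] at hv
    exact Prod.ext e (Option.some.inj hv).symm
  · intro τ _ τ' _ h
    funext j
    have key : ∀ i, τ j = some i ↔ τ' j = some i := by
      intro i
      have := congrArg (fun S : Finset (Var t b) => (j, i) ∈ S) h
      simpa using this
    cases h1 : τ j with
    | some i => exact ((key i).1 h1).symm
    | none =>
      cases h2 : τ' j with
      | none => rfl
      | some i => rw [(key i).2 h2] at h1; exact absurd h1 (by simp)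
  · intro T hT
    rw [mem_Sel] at hT
    refine ⟨fun j => if h : ∃ i, (j, i) ∈ T then some h.choose else none, mem_univ _, ?_⟩
    ext v
    simp only [mem_filter, mem_univ, true_and]
    constructor
    · intro h
      split_ifs at h with h'
      have e := Option.some.inj h
      have := h'.choose_spec
      rw [e] at this
      exact this
    · intro hv
      have h' : ∃ i, (v.1, i) ∈ T := ⟨v.2, hv⟩
      rw [dif_pos h']
      have := hT _ h'.choose_spec v hv rfl
      exact congrArg (fun w : Var t b => some w.2) this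
  · intro τ _
    have hc : (univ.filter (fun v : Var t b => τ v.1 = some v.2)).card =
        (univ.filter (fun j => ¬ τ j = none)).card := by
      refine card_bij (fun v _ => v.1) ?_ ?_ ?_
      · intro v hv
        simp only [mem_filter, mem_univ, true_and] at hv ⊢
        simp [hv]
      · intro v hv w hw e
        simp only [mem_filter, mem_univ, true_and] at hv hw
        rw [e, hw] at hv
        exact Prod.ext e (Option.some.inj hv).symm
      · intro j hj
        simp only [mem_filter, mem_univ, true_and] at hj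
        obtain ⟨i, hi⟩ := Option.ne_none_iff_exists'.1 hj
        exact ⟨(j, i), by simp [hi], rfl⟩
    rw [hc, prod_ite, prod_const_one, one_mul, prod_const]

/-- The subcube through `x0` with live variables `T`. -/
def cube {V : Type} [Fintype V] [DecidableEq V] (T : Finset V) (x0 : V → Bool) :
    Finset (V → Bool) := univ.filter (fun x => ∀ v, v ∉ T → x v = x0 v)

lemma mem_cube {V : Type} [Fintype V] [DecidableEq V] {T : Finset V} {x0 x : V → Bool} :
    x ∈ cube T x0 ↔ ∀ v, v ∉ T → x v = x0 v := by simp [cube]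

lemma card_cube {V : Type} [Fintype V] [DecidableEq V] (T : Finset V) (x0 : V → Bool) :
    (cube T x0).card = 2 ^ T.card := by
  have : cube T x0 = Fintype.piFinset (fun v => if v ∈ T then univ else {x0 v}) := by
    ext x
    rw [mem_cube, Fintype.mem_piFinset]
    refine forall_congr' fun v => ?_
    by_cases h : v ∈ T <;> simp [h]
  rw [this, Fintype.card_piFinset]
  have : ∀ v, (if v ∈ T then (univ : Finset Bool) else {x0 v}).card = if v ∈ T then 2 else 1 := by
    intro v; split_ifs <;> simp
  simp only [this]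
  rw [prod_ite, prod_const_one, mul_one, prod_const]
  congr 1
  simp

lemma sum_cube {V : Type} [Fintype V] [DecidableEq V] (T : Finset V) (Φ : (V → Bool) → ℝ) :
    ∑ x0, ∑ x ∈ cube T x0, Φ x = 2 ^ T.card * ∑ x, Φ x := by
  have : ∀ x0, ∑ x ∈ cube T x0, Φ x = ∑ x, if x0 ∈ cube T x then Φ x else 0 := by
    intro x0
    rw [← sum_filter]
    refine sum_congr ?_ fun _ _ => rfl
    ext x
    simp only [mem_filter, mem_univ, true_and, mem_cube]
    exact forall_congr' fun v => imp_congr_right fun _ => eq_comm
  simp only [this]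
  rw [sum_comm, mul_sum]
  refine sum_congr rfl fun x _ => ?_
  rw [← sum_filter, sum_const, nsmul_eq_mul]
  congr 1
  have : (univ.filter (fun x0 => x0 ∈ cube T x)) = cube T x := by ext; simp
  rw [this, card_cube]; push_cast; rfl

/-- The point of the subcube with prescribed parities. -/
def lift (T : Finset (Var t b)) (x0 : Var t b → Bool) (y : Fin t → Bool) : Var t b → Bool :=
  fun v => if v ∈ T ∧ par x0 v.1 ≠ y v.1 then !x0 v else x0 v

lemma lift_mem (T : Finset (Var t b)) (x0 : Var t b → Bool) (y : Fin t → Bool) :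
    lift T x0 y ∈ cube T x0 := by
  rw [mem_cube]
  intro v hv
  simp [lift, hv]

lemma par_lift {T : Finset (Var t b)} (hT : IsSel T) (x0 : Var t b → Bool) (y : Fin t → Bool)
    (hy : ∀ j, (∀ i, (j, i) ∉ T) → y j = par x0 j) : par (lift T x0 y) = y := by
  funext j
  by_cases h : par x0 j = y j
  · rw [← h]
    exact par_congr fun i => by simp [lift, h]
  · have hex : ∃ i, (j, i) ∈ T := by
      by_contra hc
      exact h (hy j fun i hi => hc ⟨i, hi⟩).symm
    obtain ⟨i0, hi0⟩ := hex
    have hne : par (lift T x0 y) j ≠ par x0 j := by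
      intro e
      have := par_inj (x := lift T x0 y) (x' := x0) (j := j) (i0 := i0) (fun i hi => by
        have : (j, i) ∉ T := fun hm => hi (congrArg Prod.snd (hT _ hm _ hi0 rfl))
        simp [lift, this]) e
      simp [lift, hi0, h] at this
    revert hne h
    cases par (lift T x0 y) j <;> cases par x0 j <;> cases y j <;> simp

lemma cube_inj {T : Finset (Var t b)} (hT : IsSel T) {x0 x x' : Var t b → Bool}
    (hx : x ∈ cube T x0) (hx' : x' ∈ cube T x0) {v : Var t b}
    (h : v ∈ T → par x v.1 = par x' v.1) : x v = x' v := by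
  rw [mem_cube] at hx hx'
  by_cases hv : v ∈ T
  · refine par_inj (j := v.1) (i0 := v.2) (fun i hi => ?_) (h hv)
    have : (v.1, i) ∉ T := fun hm => hi (congrArg Prod.snd (hT _ hm _ hv rfl))
    rw [hx _ this, hx' _ this]
  · rw [hx v hv, hx' v hv]

/-- A conjunction of clauses with at most `s` live variables, on one subcube. -/
lemma cube_disc {s : ℕ} (hs : 1 ≤ s) {g : (Fin t → Bool) → ℝ} {B : ℝ} (hg : Disc s g B)
    {T : Finset (Var t b)} (hT : IsSel T) (N : (Var t b → Bool) → Prop)
    (hN : ∀ x, ¬ N x → ∃ J : Finset (Var t b), (J ∩ T).card ≤ s ∧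
      ∀ x', (∀ v ∈ J, x' v = x v) → ¬ N x') (x0 : Var t b → Bool) :
    |∑ x ∈ cube T x0, ind (N x) * g (par x)| ≤ B := by
  classical
  set P : (Fin t → Bool) → Prop := fun y => ∀ j, (∀ i, (j, i) ∉ T) → y j = par x0 j with hP
  have hloc : Loc s (fun y => P y ∧ N (lift T x0 y)) := by
    intro y hy
    by_cases hPy : P y
    · obtain ⟨J, hJ, hJ'⟩ := hN _ (fun h => hy ⟨hPy, h⟩)
      refine ⟨(J ∩ T).image Prod.fst, card_image_le.trans hJ, fun y' hy' h => ?_⟩
      refine hJ' _ (fun v hv => ?_) h.2
      by_cases hvT : v ∈ T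
      · have := hy' v.1 (mem_image_of_mem _ (mem_inter.2 ⟨hv, hvT⟩))
        simp only [lift, this]
      · simp [lift, hvT]
    · simp only [hP, not_forall] at hPy
      obtain ⟨j, hj, hne⟩ := hPy
      refine ⟨{j}, by simpa using hs, fun y' hy' h => hne ?_⟩
      rw [← hy' j (mem_singleton_self j)]
      exact h.1 j hj
  have := hg _ hloc
  have e : ∑ x ∈ cube T x0, ind (N x) * g (par x) =
      ∑ y, ind (P y ∧ N (lift T x0 y)) * g y := by
    have e1 : ∑ y, ind (P y ∧ N (lift T x0 y)) * g y =
        ∑ y ∈ univ.filter P, ind (N (lift T x0 y)) * g y := by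
      rw [sum_filter]
      refine sum_congr rfl fun y _ => ?_
      by_cases h : P y
      · rw [if_pos h, ind_congr (and_iff_right h)]
      · rw [if_neg h, ind_false (fun h' => h h'.1), zero_mul]
    rw [e1]
    have hPx : ∀ x ∈ cube T x0, P (par x) := by
      intro x hx j hj
      exact par_congr fun i => (mem_cube.1 hx) _ (hj i)
    have hl : ∀ x ∈ cube T x0, lift T x0 (par x) = x := by
      intro x hx
      funext v
      exact cube_inj hT (lift_mem T x0 _) hx fun _ => by rw [par_lift hT x0 _ (hPx x hx)]
    refine sum_nbij' par (lift T x0) ?_ ?_ ?_ ?_ ?_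
    · intro x hx
      exact mem_filter.2 ⟨mem_univ _, hPx x hx⟩
    · intro y _
      exact lift_mem T x0 y
    · intro x hx
      exact hl x hx
    · intro y hy
      exact par_lift hT x0 y (mem_filter.1 hy).2
    · intro x hx
      rw [hl x hx]
  rw [e]; exact this

/-- The same, summed over all subcubes on which a condition `pre` holds. -/
lemma pre_disc {s : ℕ} (hs : 1 ≤ s) {g : (Fin t → Bool) → ℝ} {B : ℝ} (hg : Disc s g B)
    {T : Finset (Var t b)} (hT : IsSel T) (N : (Var t b → Bool) → Prop)
    (hN : ∀ x, ¬ N x → ∃ J : Finset (Var t b), (J ∩ T).card ≤ s ∧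
      ∀ x', (∀ v ∈ J, x' v = x v) → ¬ N x') (pre : (Var t b → Bool) → Prop)
    (hpre : ∀ x x', (∀ v, v ∉ T → x' v = x v) → pre x → pre x') :
    |∑ x, ind (pre x) * (ind (N x) * g (par x))| ≤ B * ∑ x, ind (pre x) * (1 / 2) ^ T.card := by
  have h2 : (0 : ℝ) < 2 ^ T.card := by positivity
  have h1 : |∑ x0, ∑ x ∈ cube T x0, ind (pre x) * (ind (N x) * g (par x))| ≤
      ∑ x0, B * ind (pre x0) := by
    refine (abs_sum_le_sum_abs _ _).trans (sum_le_sum fun x0 _ => ?_)
    have : ∑ x ∈ cube T x0, ind (pre x) * (ind (N x) * g (par x)) =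
        ind (pre x0) * ∑ x ∈ cube T x0, ind (N x) * g (par x) := by
      rw [mul_sum]
      refine sum_congr rfl fun x hx => ?_
      rw [mem_cube] at hx
      rw [ind_congr (⟨hpre x x0 fun v hv => (hx v hv).symm, hpre x0 x hx⟩ : pre x ↔ pre x0)]
    rw [this, abs_mul, abs_of_nonneg (ind_nonneg _), mul_comm]
    exact mul_le_mul_of_nonneg_right (cube_disc hs hg hT N hN x0) (ind_nonneg _)
  rw [sum_cube, abs_mul, abs_of_pos h2, ← mul_sum] at h1
  rw [← sum_mul, ← mul_assoc, one_div, inv_pow, ← div_eq_mul_inv, le_div_iff₀ h2, mul_comm]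
  exact h1

end

end Crest.Agent.R291
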