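import Mathlib

/-!
# R291 (S0440, depth-three lower bound `2^{ω(√n)}`): definitions

Overview.  `x ∈ {0,1}^{t × b}`, `y = par x` the block parities, `g y = ±` a pseudo-random function.
* `Hash`: a seed for which `g` has small sum on every set of a given small family of tests.
* `Sparse`: every `s`-CNF on `t` variables is a disjoint union of few sparse ones, so `g` has small
  discrepancy on all `s`-CNFs (`Disc`).
* `Width`: a `k`-CNF on `x` has small correlation with `g ∘ par` (signed expansion over the wide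
  clauses of a random subcube, and a backward encoding argument).
-/

set_option autoImplicit false

open Finset

namespace Crest.Agent.R291

noncomputable section

open Classical in
/-- Real indicator of a proposition. -/
def ind (P : Prop) : ℝ := if P then 1 else 0

lemma ind_true {P : Prop} (h : P) : ind P = 1 := by simp [ind, h]
lemma ind_false {P : Prop} (h : ¬ P) : ind P = 0 := by simp [ind, h]
lemma ind_nonneg (P : Prop) : 0 ≤ ind P := by
  by_cases h : P <;> simp [ind, h]
lemma ind_le_one (P : Prop) : ind P ≤ 1 := by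
  by_cases h : P <;> simp [ind, h]
lemma ind_mono {P Q : Prop} (h : P → Q) : ind P ≤ ind Q := by
  by_cases hP : P
  · rw [ind_true hP, ind_true (h hP)]
  · rw [ind_false hP]; exact ind_nonneg Q
lemma ind_congr {P Q : Prop} (h : P ↔ Q) : ind P = ind Q := by rw [propext h]
lemma ind_and (P Q : Prop) : ind (P ∧ Q) = ind P * ind Q := by
  by_cases hP : P <;> by_cases hQ : Q <;> simp [ind, hP, hQ]
lemma ind_eq_ite (P : Prop) [Decidable P] : ind P = if P then 1 else 0 := by
  by_cases h : P <;> simp [ind, h]

/-- Every point outside `Z` has a certificate of size at most `s`: `Z` is an `s`-CNF. -/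
def Loc {t : ℕ} (s : ℕ) (Z : (Fin t → Bool) → Prop) : Prop :=
  ∀ y, ¬ Z y → ∃ J : Finset (Fin t), J.card ≤ s ∧ ∀ y', (∀ j ∈ J, y' j = y j) → ¬ Z y'

/-- `g` has discrepancy at most `B` on every `s`-CNF. -/
def Disc {t : ℕ} (s : ℕ) (g : (Fin t → Bool) → ℝ) (B : ℝ) : Prop :=
  ∀ Z, Loc s Z → |∑ y, ind (Z y) * g y| ≤ B

/-- Block parities. -/
def par {t b : ℕ} (x : Fin t × Fin b → Bool) (j : Fin t) : Bool :=
  decide ((∑ i, (x (j, i)).toNat) % 2 = 1)

lemma par_congr {t b : ℕ} {x x' : Fin t × Fin b → Bool} {j : Fin t}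
    (h : ∀ i, x (j, i) = x' (j, i)) : par x j = par x' j := by
  unfold par
  simp only [h]

lemma par_inj {t b : ℕ} {x x' : Fin t × Fin b → Bool} {j : Fin t} {i0 : Fin b}
    (h : ∀ i, i ≠ i0 → x (j, i) = x' (j, i)) (hp : par x j = par x' j) :
    x (j, i0) = x' (j, i0) := by
  unfold par at hp
  rw [← Finset.add_sum_erase _ _ (mem_univ i0), ← Finset.add_sum_erase _ _ (mem_univ i0)] at hp
  have e : ∑ i ∈ univ.erase i0, (x (j, i)).toNat = ∑ i ∈ univ.erase i0, (x' (j, i)).toNat :=
    sum_congr rfl fun i hi => by rw [h i (ne_of_mem_erase hi)]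
  rw [e] at hp
  generalize ∑ i ∈ univ.erase i0, (x' (j, i)).toNat = m at hp
  rw [decide_eq_decide] at hp
  cases h1 : x (j, i0) <;> cases h2 : x' (j, i0) <;> simp [h1, h2] at hp ⊢ <;> omega

end

end Crest.Agent.R291
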