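import Crest.Agent.R291.Sparse1

/-!
# R291/Sparse2: sparsification by the hard-core container algorithm
-/

set_option autoImplicit false
set_option linter.unusedSectionVars false

open Finset

namespace Crest.Agent.R291

noncomputable section

variable {V : Type} [Fintype V] [DecidableEq V]

/-- The link of `L`. -/
def link (G : Finset (Finset V)) (L : Finset V) : Finset (Finset V) := G.image (· \ L)

lemma indp_link {G : Finset (Finset V)} {L W : Finset V} :
    Indp (link G L) W ↔ Indp G (W ∪ L) := by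
  have key : ∀ E : Finset V, E \ L ⊆ W ↔ E ⊆ W ∪ L := by
    intro E
    constructor
    · intro h v hv
      by_cases hvL : v ∈ L
      · exact mem_union_right _ hvL
      · exact mem_union_left _ (h (mem_sdiff.2 ⟨hv, hvL⟩))
    · intro h v hv
      rcases mem_union.1 (h (mem_sdiff.1 hv).1) with h' | h'
      · exact h'
      · exact absurd h' (mem_sdiff.1 hv).2
  simp only [Indp, link, forall_mem_image, key]

lemma indp_insert {G : Finset (Finset V)} {L W : Finset V} :
    Indp (insert L G) W ↔ ¬ L ⊆ W ∧ Indp G W := by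
  simp only [Indp, forall_mem_insert]

lemma ind_split (G : Finset (Finset V)) (T L W : Finset V) :
    ind (T ⊆ W ∧ Indp G W) =
      ind (T ∪ L ⊆ W ∧ Indp (link G L) W) + ind (T ⊆ W ∧ Indp (insert L G) W) := by
  rw [indp_link, indp_insert, union_subset_iff]
  by_cases h : L ⊆ W
  · rw [union_eq_left.2 h, ind_false (P := T ⊆ W ∧ ¬ L ⊆ W ∧ Indp G W) (fun h' => h'.2.1 h),
      add_zero]
    exact ind_congr (by tauto)
  · rw [ind_false (P := (T ⊆ W ∧ L ⊆ W) ∧ Indp G (W ∪ L)) (fun h' => h h'.1.2), zero_add]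
    exact ind_congr (by tauto)

open Classical in
/-- Number of independent sets. -/
def nInd (G : Finset (Finset V)) : ℕ := (univ.filter (Indp G)).card

/-- Weight of the possible fingerprints. -/
def om (G : Finset (Finset V)) (T : Finset V) : ℝ :=
  ∑ W : Finset V, (1 / 64 : ℝ) ^ W.card * ind (T ⊆ W ∧ Indp G W)

lemma container {lam : ℝ} (hl : 0 < lam) {s : ℕ} {Y : Type} [Fintype Y] (I : Y → Finset V)
    (g : Y → ℝ) {Δ : ℝ} (hΔ : 0 ≤ Δ)
    (htest : ∀ (T : Finset V) (F : Finset (Finset V)), (∀ E ∈ F, E.card ≤ s) →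
      (F.card : ℝ) ≤ (∑ j ∈ range s, DD (lam / (1 + lam)) j) * Fintype.card V →
      |∑ y, ind (T ⊆ I y ∧ Indp F (I y)) * g y| ≤ Δ) {K : ℝ} (hK : 0 ≤ K) (m : ℕ) :
    ∀ (G : Finset (Finset V)) (T : Finset V), nInd G ≤ m → (∀ E ∈ G, E.card ≤ s) →
      Zs lam G ∅ ^ (15 * s) * 64 ^ T.card ≤ K →
      |∑ y, ind (T ⊆ I y ∧ Indp G (I y)) * g y| ≤ Δ * K * om G T := by
  classical
  have hom : ∀ (G : Finset (Finset V)) (T : Finset V), 0 ≤ om G T := fun G T =>
    sum_nonneg fun W _ => mul_nonneg (by positivity) (ind_nonneg _)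
  have hempty : ∀ (G : Finset (Finset V)) (T : Finset V),
      (¬ ∃ y, T ⊆ I y ∧ Indp G (I y)) →
      |∑ y, ind (T ⊆ I y ∧ Indp G (I y)) * g y| ≤ Δ * K * om G T := by
    intro G T h
    rw [sum_eq_zero fun y _ => by rw [ind_false fun h' => h ⟨y, h'⟩, zero_mul], abs_zero]
    have := hom G T
    positivity
  induction m with
  | zero =>
    intro G T hm _ _
    refine hempty G T ?_
    rintro ⟨y, -, hy⟩
    have : 0 < nInd G := card_pos.2 ⟨I y, mem_filter.2 ⟨mem_univ _, hy⟩⟩
    omega
  | succ m ih =>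
    intro G T hm hG hinv
    by_cases hP : ∀ L, Indp G L → L.card ≤ s → 3 / 4 * Zs lam G ∅ < Zs lam G L
    · by_cases hex : ∃ y, T ⊆ I y ∧ Indp G (I y)
      swap
      · exact hempty G T hex
      obtain ⟨y0, hT, hy0⟩ := hex
      have h0 : Indp G ∅ := hy0.mono (empty_subset _)
      have h1 := htest T (Gmin G) (fun E hE => hG E (mem_Gmin.1 hE).1) (card_Gmin_le hl hG h0 hP)
      simp only [indp_Gmin] at h1
      have h2 : (1 / 64 : ℝ) ^ T.card ≤ om G T := by
        have := single_le_sum
          (f := fun W : Finset V => (1 / 64 : ℝ) ^ W.card * ind (T ⊆ W ∧ Indp G W))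
          (fun W _ => mul_nonneg (by positivity) (ind_nonneg _)) (mem_univ T)
        simp only [ind_true (⟨Subset.refl T, hy0.mono hT⟩ : T ⊆ T ∧ Indp G T), mul_one] at this
        exact this
      have h3 : (64 : ℝ) ^ T.card ≤ K := by
        refine le_trans ?_ hinv
        have : 1 ≤ Zs lam G ∅ ^ (15 * s) := one_le_pow₀ (one_le_Zs hl.le h0)
        have h64 : (0 : ℝ) ≤ 64 ^ T.card := by positivity
        nlinarith
      have h4 : 1 ≤ K * om G T := by
        calc (1 : ℝ) = 64 ^ T.card * (1 / 64) ^ T.card := by rw [← mul_pow]; norm_num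
          _ ≤ K * om G T := mul_le_mul h3 h2 (by positivity) hK
      calc _ ≤ Δ * 1 := by rw [mul_one]; exact h1
        _ ≤ Δ * (K * om G T) := mul_le_mul_of_nonneg_left h4 hΔ
        _ = _ := by ring
    · push Not at hP
      obtain ⟨L, hLi, hLs, hZ⟩ := hP
      have hZ1 : 1 ≤ Zs lam G ∅ := one_le_Zs hl.le (hLi.mono (empty_subset _))
      have hZl : Zs lam (link G L) ∅ = Zs lam G L := by
        simp only [Zs, union_empty, indp_link]
      have hn1 : nInd (link G L) ≤ m := by
        have : nInd (link G L) < nInd G := by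
          refine card_lt_card ⟨fun W hW => mem_filter.2 ⟨mem_univ _,
            (indp_link.1 (mem_filter.1 hW).2).mono subset_union_left⟩, fun hsub => ?_⟩
          have : Zs lam G ∅ ≤ Zs lam G L := by
            refine sum_le_sum fun W _ => mul_le_mul_of_nonneg_left (ind_mono fun h => ?_)
              (by positivity)
            rw [union_empty] at h
            exact indp_link.1 (mem_filter.1 (hsub (mem_filter.2 ⟨mem_univ _, h⟩))).2
          linarith
        omega
      have hn2 : nInd (insert L G) ≤ m := by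
        have : nInd (insert L G) < nInd G := by
          refine card_lt_card ⟨fun W hW => mem_filter.2 ⟨mem_univ _,
            (indp_insert.1 (mem_filter.1 hW).2).2⟩, fun hsub => ?_⟩
          exact (indp_insert.1 (mem_filter.1 (hsub (mem_filter.2 ⟨mem_univ _, hLi⟩))).2).1
            (Subset.refl L)
        omega
      have h1 := ih (link G L) (T ∪ L) hn1 (fun E hE => by
        obtain ⟨E', hE', rfl⟩ := mem_image.1 hE
        exact (card_le_card sdiff_subset).trans (hG E' hE')) (by
        rw [hZl]
        refine le_trans ?_ hinv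
        have a1 : Zs lam G L ^ (15 * s) ≤ (3 / 4 * Zs lam G ∅) ^ (15 * s) :=
          pow_le_pow_left₀ (Zs_nonneg hl.le _ _) hZ _
        have a2 : (64 : ℝ) ^ (T ∪ L).card ≤ 64 ^ (T.card + s) :=
          pow_le_pow_right₀ (by norm_num) ((card_union_le _ _).trans (by omega))
        have a3 : ((3 / 4 : ℝ) ^ 15 * 64) ^ s ≤ 1 := pow_le_one₀ (by norm_num) (by norm_num)
        calc _ ≤ (3 / 4 * Zs lam G ∅) ^ (15 * s) * 64 ^ (T.card + s) :=
              mul_le_mul a1 a2 (by positivity) (by positivity)
          _ = ((3 / 4 : ℝ) ^ 15 * 64) ^ s * (Zs lam G ∅ ^ (15 * s) * 64 ^ T.card) := by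
              rw [mul_pow, mul_pow, pow_add, ← pow_mul]; ring
          _ ≤ 1 * (Zs lam G ∅ ^ (15 * s) * 64 ^ T.card) :=
              mul_le_mul_of_nonneg_right a3 (by positivity)
          _ = _ := one_mul _)
      have h2 := ih (insert L G) T hn2 (fun E hE => by
        rcases mem_insert.1 hE with h | h
        · rw [h]; exact hLs
        · exact hG E h) (by
        refine le_trans (mul_le_mul_of_nonneg_right (pow_le_pow_left₀ (Zs_nonneg hl.le _ _) ?_ _)
          (by positivity)) hinv
        exact sum_le_sum fun W _ => mul_le_mul_of_nonneg_left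
          (ind_mono fun h => (indp_insert.1 h).2) (by positivity))
      have e1 : ∑ y, ind (T ⊆ I y ∧ Indp G (I y)) * g y =
          ∑ y, ind (T ∪ L ⊆ I y ∧ Indp (link G L) (I y)) * g y +
            ∑ y, ind (T ⊆ I y ∧ Indp (insert L G) (I y)) * g y := by
        rw [← sum_add_distrib]
        exact sum_congr rfl fun y _ => by rw [ind_split G T L, add_mul]
      have e2 : om G T = om (link G L) (T ∪ L) + om (insert L G) T := by
        rw [om, om, om, ← sum_add_distrib]
        exact sum_congr rfl fun W _ => by rw [ind_split G T L, mul_add]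
      rw [e1, e2, mul_add]
      exact (abs_add_le _ _).trans (add_le_add h1 h2)

/-- Sparsification. -/
theorem sparsify (s : ℕ) (hs : 1 ≤ s) : ∃ D : ℕ, ∀ (V : Type) [Fintype V] [DecidableEq V]
    (Y : Type) [Fintype Y] (I : Y → Finset V) (g : Y → ℝ) (Δ : ℝ), 0 ≤ Δ →
    (∀ (T : Finset V) (F : Finset (Finset V)), (∀ E ∈ F, E.card ≤ s) →
      F.card ≤ D * Fintype.card V → |∑ y, ind (T ⊆ I y ∧ Indp F (I y)) * g y| ≤ Δ) →
    ∀ H : Finset (Finset V), (∀ E ∈ H, E.card ≤ s) →
      |∑ y, ind (Indp H (I y)) * g y| ≤ Δ * (1.032 : ℝ) ^ Fintype.card V := by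
  have hs' : (0 : ℝ) < s := by exact_mod_cast hs
  set lam : ℝ := 1 / (1000 * s) with hlam
  have hl : 0 < lam := by positivity
  refine ⟨⌈∑ j ∈ range s, DD (lam / (1 + lam)) j⌉₊, ?_⟩
  intro V _ _ Y _ I g Δ hΔ htest H hH
  have h1 := container hl I g hΔ (s := s) (fun T F hF hc => htest T F hF (by
    have : (F.card : ℝ) ≤ (⌈∑ j ∈ range s, DD (lam / (1 + lam)) j⌉₊ : ℝ) * Fintype.card V :=
      hc.trans (mul_le_mul_of_nonneg_right (Nat.le_ceil _) (Nat.cast_nonneg _))
    exact_mod_cast this)) (K := ((1 + lam) ^ Fintype.card V) ^ (15 * s)) (by positivity)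
    (nInd H) H ∅ le_rfl hH (by
      rw [card_empty, pow_zero, mul_one]
      refine pow_le_pow_left₀ (Zs_nonneg hl.le _ _) ?_ _
      rw [← sum_pow_card]
      exact sum_le_sum fun W _ => mul_le_of_le_one_right (by positivity) (ind_le_one _))
  simp only [empty_subset, true_and] at h1
  have h2 : om H ∅ ≤ (1 + 1 / 64) ^ Fintype.card V := by
    rw [← sum_pow_card]
    exact sum_le_sum fun W _ => mul_le_of_le_one_right (by positivity) (ind_le_one _)
  have h3 : (1 + lam) ^ (15 * s) ≤ 1.016 := by
    calc (1 + lam) ^ (15 * s) ≤ Real.exp lam ^ (15 * s) :=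
          pow_le_pow_left₀ (by positivity) (by linarith [Real.add_one_le_exp lam]) _
      _ = Real.exp (15 / 1000) := by
          rw [← Real.exp_nat_mul]; congr 1; rw [hlam]; push_cast; field_simp
      _ ≤ 1.016 := by
          have := Real.exp_bound' (x := 15 / 1000) (by norm_num) (by norm_num) (n := 2)
            (by norm_num)
          norm_num [Finset.sum_range_succ] at this ⊢
          linarith
  refine h1.trans ?_
  rw [mul_assoc]
  refine mul_le_mul_of_nonneg_left ?_ hΔ
  calc _ ≤ (1.016 : ℝ) ^ Fintype.card V * (1 + 1 / 64) ^ Fintype.card V := by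
        refine mul_le_mul ?_ h2 (sum_nonneg fun W _ => mul_nonneg (by positivity) (ind_nonneg _))
          (by positivity)
        rw [← pow_mul, mul_comm, pow_mul]
        exact pow_le_pow_left₀ (by positivity) h3 _
    _ ≤ _ := by
        rw [← mul_pow]
        exact pow_le_pow_left₀ (by positivity) (by norm_num) _

end

end Crest.Agent.R291
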