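import Crest.Agent.R291.Hash
import Crest.Agent.R291.Sparse2

/-!
# R291/DiscSeed: a seed with small discrepancy on all `s`-CNFs
-/

set_option autoImplicit false
set_option linter.unusedSectionVars false

open Finset

namespace Crest.Agent.R291

noncomputable section

lemma card_small {α : Type} [DecidableEq α] (A : Finset α) (m : ℕ) :
    (A.powerset.filter (fun S => S.card ≤ m)).card ≤ (A.card + 1) ^ m := by
  have hsub : A.powerset.filter (fun S => S.card ≤ m) ⊆
      (Fintype.piFinset fun _ : Fin m => insertNone A).image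
        (fun f => eraseNone (univ.image f)) := by
    intro S hS
    obtain ⟨hSA, hc⟩ := mem_filter.1 hS
    rw [mem_powerset] at hSA
    refine mem_image.2 ⟨fun k => S.toList[(k : ℕ)]?, Fintype.mem_piFinset.2 fun k => ?_, ?_⟩
    · rw [mem_insertNone]
      intro a ha
      exact hSA (mem_toList.1 (List.mem_of_getElem? ha))
    · ext a
      rw [mem_eraseNone, mem_image]
      constructor
      · rintro ⟨k, -, hk⟩
        exact mem_toList.1 (List.mem_of_getElem? hk)
      · intro ha
        obtain ⟨k, hk, hk'⟩ := List.getElem_of_mem (mem_toList.2 ha)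
        have hk2 := hk
        rw [length_toList] at hk2
        exact ⟨⟨k, by omega⟩, mem_univ _, by simp only; rw [List.getElem?_eq_getElem hk, hk']⟩
  refine (card_le_card hsub).trans (card_image_le.trans ?_)
  rw [Fintype.card_piFinset, prod_const, card_univ, Fintype.card_fin, card_insertNone]

/-- The graph of `y`. -/
def gr {t : ℕ} (y : Fin t → Bool) : Finset (Fin t × Bool) := univ.image fun j => (j, y j)

lemma mem_gr {t : ℕ} {y : Fin t → Bool} {p : Fin t × Bool} : p ∈ gr y ↔ y p.1 = p.2 := by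
  simp only [gr, mem_image, mem_univ, true_and]
  constructor
  · rintro ⟨j, rfl⟩; rfl
  · intro h; exact ⟨p.1, by rw [h]⟩

theorem exists_disc (s : ℕ) (hs : 1 ≤ s) : ∃ D : ℕ, ∀ (t q : ℕ) [Fact q.Prime]
    (e : (Fin t → Bool) → ZMod q), Function.Injective e → ∀ γ : ZMod q → ℝ, ∑ v, γ v = 0 →
    (∀ v, |γ v| ≤ 1) → ∀ l : ℕ, 1 ≤ l → ∀ R S : ℝ, 0 ≤ R → 0 ≤ S → (2 : ℝ) ^ t ≤ S ^ 2 →
    (2 : ℝ) ^ (2 * t) * (((2 * t + 1) ^ s + 1 : ℕ) : ℝ) ^ (D * (2 * t)) ≤ R ^ (2 * l) →
    ∃ a : Fin (2 * l) → ZMod q,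
      Disc s (fun y => γ (hval a (e y))) (R * S * l * (1.032 : ℝ) ^ (2 * t)) := by
  classical
  obtain ⟨D, hD⟩ := sparsify s hs
  refine ⟨D, ?_⟩
  intro t q _ e he γ hγ hγ1 l hl R S hR hS hY hcard
  have hV : Fintype.card (Fin t × Bool) = 2 * t := by simp [mul_comm]
  set Small := (univ : Finset (Fin t × Bool)).powerset.filter (fun S => S.card ≤ s) with hSmall
  set tests := (univ : Finset (Finset (Fin t × Bool))) ×ˢ
    (Small.powerset.filter (fun F => F.card ≤ D * (2 * t))) with htests
  have hc : tests.card ≤ 2 ^ (2 * t) * ((2 * t + 1) ^ s + 1) ^ (D * (2 * t)) := by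
    rw [htests, card_product, card_univ, Fintype.card_finset, hV]
    refine Nat.mul_le_mul_left _ ((card_small _ _).trans (Nat.pow_le_pow_left ?_ _))
    have := card_small (univ : Finset (Fin t × Bool)) s
    rw [card_univ, hV] at this
    exact Nat.add_le_add_right this 1
  obtain ⟨a, ha⟩ := exists_seed e he γ hγ hγ1 l hl tests
    (fun p y => p.1 ⊆ gr y ∧ Indp p.2 (gr y)) hR hS
    (le_trans (by exact_mod_cast hc) hcard) (by simpa using hY)
  refine ⟨a, fun Z hZ => ?_⟩
  have h1 := hD (Fin t × Bool) (Fin t → Bool) gr (fun y => γ (hval a (e y))) (R * S * l)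
    (by positivity) (fun T F hF hFc => ha (T, F) (by
      refine mem_product.2 ⟨mem_univ _, mem_filter.2 ⟨mem_powerset.2 fun E hE => ?_, hV ▸ hFc⟩⟩
      exact mem_filter.2 ⟨mem_powerset.2 (subset_univ _), hF E hE⟩))
    (univ.filter fun E => E.card ≤ s ∧ ∀ y, E ⊆ gr y → ¬ Z y)
    (fun E hE => (mem_filter.1 hE).2.1)
  rw [hV] at h1
  have e1 : ∀ y, Indp (univ.filter fun E : Finset (Fin t × Bool) =>
      E.card ≤ s ∧ ∀ y, E ⊆ gr y → ¬ Z y) (gr y) ↔ Z y := by
    intro y
    constructor
    · intro h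
      by_contra hy
      obtain ⟨J, hJ, hJ'⟩ := hZ y hy
      refine h (J.image fun j => (j, y j)) (mem_filter.2 ⟨mem_univ _, card_image_le.trans hJ,
        fun y' hy' => hJ' y' fun j hj => ?_⟩) ?_
      · exact mem_gr.1 (hy' (mem_image_of_mem _ hj))
      · exact image_subset_image (subset_univ J)
    · intro h E hE hsub
      exact (mem_filter.1 hE).2.2 y hsub h
  simp only [e1] at h1
  exact h1

end

end Crest.Agent.R291
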