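import Crest.Agent.R291.Core
import Crest.Agent.R291.DiscSeed

/-!
# R291/Main: choice of the parameters
-/

set_option autoImplicit false

open Finset
open Crest.Depth3 Crest.Enc

namespace Crest.Agent.R291

lemma eventually_poly (C : ℝ) (m : ℕ) : ∃ b0 : ℕ, ∀ b ≥ b0, C * (b : ℝ) ^ m ≤ (1.05 : ℝ) ^ b := by
  have h := (tendsto_pow_const_div_const_pow_of_one_lt m (r := (1.05 : ℝ))
    (by norm_num)).const_mul C
  rw [mul_zero] at h
  obtain ⟨b0, hb0⟩ := Filter.eventually_atTop.1 (h.eventually (ge_mem_nhds zero_lt_one))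
  refine ⟨b0, fun b hb => ?_⟩
  have := hb0 b hb
  rwa [← mul_div_assoc, div_le_one (by positivity)] at this

/-- The bound in terms of the block length `b`. -/
theorem main_b (a κ : ℕ) (ha : 1 ≤ a) (hκ : κ = 48 * a + 36) : ∃ b0 : ℕ, ∀ b ≥ b0, ∀ n : ℕ,
    (4 * κ * b) ^ 2 ≤ n → ∀ c : Circuit n, (∀ x : Fin n → Bool, c.eval x ↔ List.ofFn x ∈ Lang) →
      2 ^ (8 * a * κ * b) < c.size := by
  obtain ⟨s0, hs0⟩ := pow_unbounded_of_one_lt (Real.exp (28 * (16 * a * κ + 4)))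
    (show (1 : ℝ) < 2 by norm_num)
  obtain ⟨D, hD⟩ := exists_disc (s0 + 1) (by omega)
  obtain ⟨b1, hb1⟩ := eventually_poly (2 * (2 * (3 * κ ^ 2) ^ (s0 + 1)) ^ D) ((s0 + 1) * D)
  obtain ⟨b2, hb2⟩ := eventually_poly 1 1
  refine ⟨max (max b1 b2) 6, fun b hb n hn c hc => ?_⟩
  have hb6 : 6 ≤ b := le_trans (le_max_right _ _) hb
  replace hb1 := hb1 b (le_trans (le_trans (le_max_left _ _) (le_max_left _ _)) hb)
  replace hb2 := hb2 b (le_trans (le_trans (le_max_right _ _) (le_max_left _ _)) hb)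
  by_contra hcon
  push Not at hcon
  obtain ⟨t, ht⟩ : ∃ t, t = κ ^ 2 * b := ⟨_, rfl⟩
  obtain ⟨σ, hσ⟩ : ∃ σ, σ = 8 * a * κ * b := ⟨_, rfl⟩
  rw [← hσ] at hcon
  have hκ1 : 1 ≤ κ := by omega
  have hκ2 : 1 ≤ κ ^ 2 := Nat.one_le_pow _ _ hκ1
  have hbt : b ≤ t := by rw [ht]; exact Nat.le_mul_of_pos_left _ hκ2
  have hb0 : (0 : ℝ) < b := by exact_mod_cast (show 0 < b by omega)
  have htσ : 6 * (σ + 6) ≤ t := by
    have : 1 ≤ κ * b := Nat.mul_pos hκ1 (by omega)
    have e : t = (48 * a + 36) * (κ * b) := by rw [ht, ← hκ]; ring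
    rw [e, hσ]
    nlinarith
  obtain ⟨q, hq, hq1, hq2⟩ := Nat.exists_prime_lt_and_le_two_mul (2 ^ t) (by positivity)
  haveI : Fact q.Prime := ⟨hq⟩
  have ht2 : t < 2 ^ t := Nat.lt_two_pow_self
  have hq0 : (0 : ℝ) < q := by exact_mod_cast hq.pos
  set c0 : ℝ := ((q / 2 : ℕ) : ℝ) / q with hc0
  have hc1 : c0 ≤ 1 / 2 := by
    rw [hc0, div_le_iff₀ hq0]
    have : ((2 * (q / 2) : ℕ) : ℝ) ≤ q := by exact_mod_cast Nat.mul_div_le q 2
    push_cast at this
    linarith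
  have hc2 : 1 / 3 ≤ c0 := by
    rw [hc0, le_div_iff₀ hq0]
    have : (q : ℝ) ≤ ((3 * (q / 2) : ℕ) : ℝ) := by exact_mod_cast (show q ≤ 3 * (q / 2) by omega)
    push_cast at this
    linarith
  obtain ⟨sd, hsd⟩ := hD t q (fun y => (zval y : ZMod q)) (by
      intro y y' h
      apply zval_inj
      have := congrArg ZMod.val h
      rwa [ZMod.val_cast_of_lt ((zval_lt y).trans hq1),
        ZMod.val_cast_of_lt ((zval_lt y').trans hq1)] at this)
    (fun v => ind (v.val % 2 = 1) - c0) (by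
      rw [sum_sub_distrib, sum_odd, sum_const, card_univ, ZMod.card, nsmul_eq_mul, hc0]
      field_simp
      ring) (by
      intro v
      have := ind_nonneg (v.val % 2 = 1)
      have := ind_le_one (v.val % 2 = 1)
      rw [abs_le]; constructor <;> linarith) b (by omega) ((1.05 : ℝ) ^ t) ((1.415 : ℝ) ^ t)
    (by positivity) (by positivity) (by
      rw [← pow_mul, mul_comm, pow_mul]
      exact pow_le_pow_left₀ (by norm_num) (by norm_num) _) (by
      rw [pow_mul _ D, ← mul_pow, ← pow_mul (1.05 : ℝ), show t * (2 * b) = b * (2 * t) by ring,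
        pow_mul (1.05 : ℝ)]
      refine pow_le_pow_left₀ (by positivity) (le_trans ?_ hb1) _
      rw [mul_assoc, pow_mul (b : ℝ), ← mul_pow, mul_assoc, ← mul_pow]
      refine mul_le_mul_of_nonneg_left (pow_le_pow_left₀ (by positivity) ?_ _) (by norm_num)
      have h1 : (2 * t + 1) ^ (s0 + 1) ≤ (3 * κ ^ 2 * b) ^ (s0 + 1) :=
        Nat.pow_le_pow_left (by rw [mul_assoc, ← ht]; omega) _
      have h2 : 1 ≤ (2 * t + 1) ^ (s0 + 1) := Nat.one_le_pow _ _ (by omega)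
      have h3 : (2 * t + 1) ^ (s0 + 1) + 1 ≤ 2 * (3 * κ ^ 2 * b) ^ (s0 + 1) := by omega
      exact_mod_cast h3)
  obtain ⟨X, pos, hX1, hX2, hX3⟩ := exists_input (t := t) (b := b) (n := n) (by omega) (by omega)
    sd (by
      have h1 := length_listCode_le (t :: b :: q :: List.ofFn fun k => (sd k).val) (t + 2) (by
        intro x hx
        have e : 2 ^ (t + 2) = 4 * 2 ^ t := by ring
        simp only [List.mem_cons, List.mem_ofFn] at hx
        rcases hx with h | h | h | ⟨k, h⟩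
        · omega
        · omega
        · omega
        · have := ZMod.val_lt (sd k)
          omega) (by
        have e : 2 ^ (t + 2) = 4 * 2 ^ t := by ring
        simp only [List.length_cons, List.length_ofFn]
        omega)
      simp only [List.length_cons, List.length_ofFn] at h1
      have h2 : (2 * b + 1 + 1 + 1 + 1) * (2 * (t + 2) + 2) ≤ (3 * b) * (3 * t) :=
        Nat.mul_le_mul (by omega) (by omega)
      have h3 : (4 * κ * b) ^ 2 = 16 * (t * b) := by rw [ht]; ring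
      have h4 : (3 * b) * (3 * t) = 9 * (t * b) := by ring
      omega)
  set B : ℝ := (1.05 : ℝ) ^ t * (1.415 : ℝ) ^ t * b * (1.032 : ℝ) ^ (2 * t) with hB
  have hks : (1 + 2 * (14 / (b : ℝ))) ^ (2 * σ + 4) ≤ 2 ^ (s0 + 1) := by
    calc _ ≤ Real.exp (2 * (14 / (b : ℝ))) ^ (2 * σ + 4) :=
          pow_le_pow_left₀ (by positivity)
            (by linarith [Real.add_one_le_exp (2 * (14 / (b : ℝ)))]) _
      _ ≤ Real.exp (28 * (16 * a * κ + 4)) := by
          rw [← Real.exp_nat_mul, Real.exp_le_exp, hσ]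
          have hb1' : (1 : ℝ) ≤ b := by exact_mod_cast (show 1 ≤ b by omega)
          have : (((2 * (8 * a * κ * b) + 4 : ℕ) : ℝ)) * (2 * (14 / (b : ℝ))) =
              28 * (16 * a * κ + 4 / b) := by
            push_cast; field_simp; ring
          rw [this]
          have : 4 / (b : ℝ) ≤ 4 := by rw [div_le_iff₀ hb0]; linarith
          linarith
      _ ≤ 2 ^ s0 := hs0.le
      _ ≤ _ := pow_le_pow_right₀ (by norm_num) (by omega)
  have hmain := circuit_bound c X pos hX1 hX2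
    (fun x => ind ((hval sd (zval (par x) : ZMod q)).val % 2 = 1) - c0) hc1
    (fun x => by rw [ind_congr ((hc _).trans (hX3 x))]) (k := 2 * σ + 4)
    (η := 2 * (0.89 : ℝ) ^ t) (by
      intro vars viol hdep hk C
      have h1 := width_reduction (by omega) hsd hdep hk (μ := 14 / (b : ℝ)) (by positivity) hks C
      have e1 : 1 + (b : ℝ) * (14 / b) = 15 := by field_simp; norm_num
      have e2 : 1 + (b : ℝ) * (14 / b / 2) = 8 := by field_simp; norm_num
      rw [e1, e2] at h1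
      have h2 : B * 8 ^ t ≤ (0.89 : ℝ) ^ t * 15 ^ t := by
        have hb3 : (b : ℝ) ≤ (1.05 : ℝ) ^ t := by
          rw [one_mul, pow_one] at hb2
          exact hb2.trans (pow_le_pow_right₀ (by norm_num) hbt)
        calc B * 8 ^ t ≤ (1.05 : ℝ) ^ t * (1.415 : ℝ) ^ t * (1.05 : ℝ) ^ t *
              (1.032 : ℝ) ^ (2 * t) * 8 ^ t := by rw [hB]; gcongr
          _ = (1.05 * 1.415 * 1.05 * 1.032 ^ 2 * 8 : ℝ) ^ t := by
              rw [pow_mul]; simp only [mul_pow]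
          _ ≤ (0.89 * 15 : ℝ) ^ t := pow_le_pow_left₀ (by norm_num) (by norm_num) _
          _ = _ := mul_pow _ _ _
      have h15 : (0 : ℝ) < 15 ^ t := by positivity
      refine le_of_mul_le_mul_left (h1.trans ?_) h15
      have h3 : (0 : ℝ) ≤ 2 ^ (t * b) := by positivity
      nlinarith [mul_le_mul_of_nonneg_right h2 h3])
  have hbot : (c.bot : ℝ) ≤ 2 ^ σ := by
    have : c.bot ≤ 2 ^ σ := by unfold Circuit.size at hcon; omega
    exact_mod_cast this
  have hmid : (c.mid : ℝ) ≤ 2 ^ σ := by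
    have : c.mid ≤ 2 ^ σ := by unfold Circuit.size at hcon; omega
    exact_mod_cast this
  have hS : (1 : ℝ) ≤ 2 ^ σ := one_le_pow₀ (by norm_num)
  have hη : (0.89 : ℝ) ^ t * 2 ^ σ ≤ 1 / 64 := by
    calc (0.89 : ℝ) ^ t * 2 ^ σ ≤ (0.89 : ℝ) ^ (6 * (σ + 6)) * 2 ^ σ :=
          mul_le_mul_of_nonneg_right (pow_le_pow_of_le_one (by norm_num) (by norm_num) htσ)
            (by positivity)
      _ ≤ (1 / 2 : ℝ) ^ (σ + 6) * 2 ^ σ := by
          rw [pow_mul]
          exact mul_le_mul_of_nonneg_right (pow_le_pow_left₀ (by positivity) (by norm_num) _)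
            (by positivity)
      _ = 1 / 64 := by rw [pow_add, mul_right_comm, ← mul_pow]; norm_num
  have hη0 : (0 : ℝ) ≤ (0.89 : ℝ) ^ t := by positivity
  have h5 : (c.mid : ℝ) * (c.bot / 2 ^ (2 * σ + 4)) ≤ 1 / 16 := by
    rw [← mul_div_assoc, div_le_iff₀ (by positivity)]
    calc (c.mid : ℝ) * c.bot ≤ 2 ^ σ * 2 ^ σ := mul_le_mul hmid hbot (by positivity) (by positivity)
      _ = _ := by ring
  have h6 : (c.mid : ℝ) * (0.89 : ℝ) ^ t ≤ 1 / 64 := by nlinarith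
  have h7 : (0.89 : ℝ) ^ t ≤ 1 / 64 := by nlinarith
  nlinarith

theorem main (A : ℝ) (hA : 0 < A) : ∃ N : ℕ, ∀ n ≥ N, ∀ c : Circuit n,
    (∀ x : Fin n → Bool, c.eval x ↔ List.ofFn x ∈ Lang) →
      (2 : ℝ) ^ (A * Real.sqrt n) < (c.size : ℝ) := by
  obtain ⟨a, ha⟩ : ∃ a, a = ⌈A⌉₊ := ⟨_, rfl⟩
  have ha1 : 1 ≤ a := by rw [ha]; exact Nat.ceil_pos.2 hA
  have hAa : A ≤ a := by rw [ha]; exact Nat.le_ceil A
  obtain ⟨κ, hκ⟩ : ∃ κ, κ = 48 * a + 36 := ⟨_, rfl⟩
  obtain ⟨b0, hb0⟩ := main_b a κ ha1 hκ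
  refine ⟨(4 * κ * (b0 + 1)) ^ 2, fun n hn c hc => ?_⟩
  have hκ0 : 0 < 4 * κ := by omega
  have hu : 4 * κ * (b0 + 1) ≤ Nat.sqrt n := Nat.le_sqrt'.2 hn
  obtain ⟨b, hb⟩ : ∃ b, b = Nat.sqrt n / (4 * κ) := ⟨_, rfl⟩
  have hb1 : b0 + 1 ≤ b := by
    rw [hb, Nat.le_div_iff_mul_le hκ0, mul_comm]; exact hu
  have hb2 : 4 * κ * b ≤ Nat.sqrt n := by rw [hb]; exact Nat.mul_div_le _ _
  have hb3 : Nat.sqrt n < 4 * κ * (b + 1) := by rw [hb]; exact Nat.lt_mul_div_succ _ hκ0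
  have h1 := hb0 b (by omega) n ((Nat.pow_le_pow_left hb2 2).trans (Nat.sqrt_le' n)) c hc
  have h2 : Real.sqrt n ≤ (8 * κ * b : ℕ) := by
    have h3 : Nat.sqrt n + 1 ≤ 8 * κ * b := by
      have : 4 * κ * (b + 1) ≤ 4 * κ * (2 * b) := Nat.mul_le_mul_left _ (by omega)
      have e : 4 * κ * (2 * b) = 8 * κ * b := by ring
      omega
    refine Real.real_sqrt_le_nat_sqrt_succ.trans ?_
    exact_mod_cast h3
  calc (2 : ℝ) ^ (A * Real.sqrt n) ≤ (2 : ℝ) ^ (((8 * a * κ * b : ℕ) : ℝ)) := by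
        refine Real.rpow_le_rpow_of_exponent_le (by norm_num) ?_
        calc A * Real.sqrt n ≤ a * ((8 * κ * b : ℕ) : ℝ) :=
              mul_le_mul hAa h2 (Real.sqrt_nonneg _) (Nat.cast_nonneg _)
          _ = _ := by push_cast; ring
    _ < _ := by
        rw [Real.rpow_natCast]
        exact_mod_cast h1

end Crest.Agent.R291
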