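import Crest.Agent.R291.Defs

/-!
# R291/Sparse1: hard-core weights, and the number of minimal edges of a stable hypergraph
-/

set_option autoImplicit false
set_option linter.unusedSectionVars false

open Finset

namespace Crest.Agent.R291

noncomputable section

variable {V : Type} [Fintype V] [DecidableEq V]

/-- `W` contains no edge of `G`. -/
def Indp (G : Finset (Finset V)) (W : Finset V) : Prop := ∀ E ∈ G, ¬ E ⊆ W

omit [Fintype V] [DecidableEq V] in
lemma Indp.mono {G : Finset (Finset V)} {W W' : Finset V} (h : Indp G W) (hs : W' ⊆ W) :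
    Indp G W' := fun E hE hsub => h E hE (hsub.trans hs)

/-- Weight of the sets `W` with `W ∪ L` independent. -/
def Zs (lam : ℝ) (G : Finset (Finset V)) (L : Finset V) : ℝ :=
  ∑ W : Finset V, lam ^ W.card * ind (Indp G (W ∪ L))

lemma Zs_nonneg {lam : ℝ} (hl : 0 ≤ lam) (G : Finset (Finset V)) (L : Finset V) :
    0 ≤ Zs lam G L := sum_nonneg fun W _ => mul_nonneg (by positivity) (ind_nonneg _)

lemma Zs_le {lam : ℝ} (hl : 0 ≤ lam) (G : Finset (Finset V)) (L : Finset V) :
    Zs lam G L ≤ Zs lam G ∅ :=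
  sum_le_sum fun W _ => mul_le_mul_of_nonneg_left
    (ind_mono fun h => h.mono (union_subset_union_right (empty_subset L))) (by positivity)

lemma sum_pow_card (z : ℝ) : ∑ W : Finset V, z ^ W.card = (1 + z) ^ Fintype.card V := by
  have := Finset.prod_one_add (f := fun _ : V => z) univ
  simp only [prod_const, card_univ, powerset_univ] at this
  exact this.symm

lemma one_le_Zs {lam : ℝ} (hl : 0 ≤ lam) {G : Finset (Finset V)} (h : Indp G ∅) :
    1 ≤ Zs lam G ∅ := by
  have := single_le_sum (f := fun W : Finset V => lam ^ W.card * ind (Indp G (W ∪ ∅)))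
    (fun W _ => mul_nonneg (by positivity) (ind_nonneg _)) (mem_univ ∅)
  simp only [card_empty, pow_zero, union_empty, one_mul, ind_true h] at this
  simpa [Zs] using this

lemma sum_mem_one {lam : ℝ} (hl : 0 < lam) (v : V) (Φ : Finset V → ℝ) :
    ∑ W : Finset V, lam ^ W.card * (ind (v ∈ W) * Φ W) =
      lam / (1 + lam) * ∑ W : Finset V, lam ^ W.card * Φ (insert v W) := by
  have hu : (univ : Finset (Finset V)) = (insert v (univ.erase v)).powerset := by
    rw [insert_erase (mem_univ v), powerset_univ]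
  have hv : v ∉ univ.erase v := notMem_erase v univ
  rw [hu, sum_powerset_insert hv, sum_powerset_insert hv]
  set A := ∑ W ∈ (univ.erase v).powerset, lam ^ W.card * Φ (insert v W) with hA
  have hn : ∀ W ∈ (univ.erase v).powerset, v ∉ W := fun W hW h => hv (mem_powerset.1 hW h)
  have e1 : ∑ W ∈ (univ.erase v).powerset, lam ^ W.card * (ind (v ∈ W) * Φ W) = 0 :=
    sum_eq_zero fun W hW => by rw [ind_false (hn W hW)]; ring
  have e2 : ∑ W ∈ (univ.erase v).powerset, lam ^ (insert v W).card *
      (ind (v ∈ insert v W) * Φ (insert v W)) = lam * A := by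
    rw [hA, mul_sum]
    refine sum_congr rfl fun W hW => ?_
    rw [card_insert_of_notMem (hn W hW), ind_true (mem_insert_self v W)]; ring
  have e3 : ∑ W ∈ (univ.erase v).powerset, lam ^ (insert v W).card *
      Φ (insert v (insert v W)) = lam * A := by
    rw [hA, mul_sum]
    refine sum_congr rfl fun W hW => ?_
    rw [card_insert_of_notMem (hn W hW), insert_idem]; ring
  rw [e1, e2, e3]
  field_simp
  ring

lemma sum_subset_mem {lam : ℝ} (hl : 0 < lam) (M : Finset V) : ∀ Φ : Finset V → ℝ,
    ∑ W : Finset V, lam ^ W.card * (ind (M ⊆ W) * Φ W) =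
      (lam / (1 + lam)) ^ M.card * ∑ W : Finset V, lam ^ W.card * Φ (W ∪ M) := by
  induction M using Finset.induction_on with
  | empty => intro Φ; simp [ind_true]
  | insert v M hv ih =>
    intro Φ
    have h1 := ih (fun W => ind (v ∈ W) * Φ W)
    have h2 := sum_mem_one hl v (fun W => Φ (W ∪ M))
    have e1 : ∑ W : Finset V, lam ^ W.card * (ind (insert v M ⊆ W) * Φ W) =
        ∑ W : Finset V, lam ^ W.card * (ind (M ⊆ W) * (ind (v ∈ W) * Φ W)) := by
      refine sum_congr rfl fun W _ => ?_
      rw [ind_congr insert_subset_iff, ind_and]; ring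
    have e2 : ∑ W : Finset V, lam ^ W.card * (ind (v ∈ W ∪ M) * Φ (W ∪ M)) =
        ∑ W : Finset V, lam ^ W.card * (ind (v ∈ W) * Φ (W ∪ M)) := by
      refine sum_congr rfl fun W _ => ?_
      rw [ind_congr (show v ∈ W ∪ M ↔ v ∈ W by simp [hv])]
    rw [e1, h1, e2, h2, card_insert_of_notMem hv, pow_succ, mul_assoc]
    congr 2
    refine sum_congr rfl fun W _ => ?_
    rw [insert_union, union_insert]

open Classical in
/-- Minimal edges. -/
def Gmin (G : Finset (Finset V)) : Finset (Finset V) := G.filter (fun E => ∀ E' ∈ G, E' ⊆ E → E' = E)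

lemma mem_Gmin {G : Finset (Finset V)} {E : Finset V} :
    E ∈ Gmin G ↔ E ∈ G ∧ ∀ E' ∈ G, E' ⊆ E → E' = E := by
  classical
  simp [Gmin]

lemma indp_Gmin {G : Finset (Finset V)} {W : Finset V} : Indp (Gmin G) W ↔ Indp G W := by
  constructor
  · intro h E hE hsub
    obtain ⟨E', hE', hmin⟩ := exists_min_image (G.filter (· ⊆ W)) card ⟨E, mem_filter.2 ⟨hE, hsub⟩⟩
    rw [mem_filter] at hE'
    refine h E' (mem_Gmin.2 ⟨hE'.1, fun E'' hE'' hs => ?_⟩) hE'.2
    exact eq_of_subset_of_card_le hs (hmin E'' (mem_filter.2 ⟨hE'', hs.trans hE'.2⟩))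
  · intro h E hE
    exact h E (mem_Gmin.1 hE).1

lemma indp_of_ssubset {G : Finset (Finset V)} {E W : Finset V} (hE : E ∈ Gmin G) (hW : W ⊆ E)
    (hne : ¬ E ⊆ W) : Indp G W := by
  intro E' hE' hs
  have := (mem_Gmin.1 hE).2 E' hE' (hs.trans hW)
  exact hne (this ▸ hs)

/-- Degree bounds. -/
def DD (p : ℝ) : ℕ → ℝ
  | 0 => 1
  | j + 1 => 4 * (j + 1) * DD p j / p ^ (j + 1)

lemma DD_nonneg {p : ℝ} (hp : 0 < p) (j : ℕ) : 0 ≤ DD p j := by
  induction j with
  | zero => simp [DD]
  | succ j ih => simp only [DD]; positivity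

/-- Minimal edges through `L` with `j` further vertices. -/
def EE (G : Finset (Finset V)) (L : Finset V) (j : ℕ) : Finset (Finset V) :=
  (Gmin G).filter (fun E => L ⊆ E ∧ (E \ L).card = j)

lemma deg_le {lam : ℝ} (hl : 0 < lam) {s : ℕ} {G : Finset (Finset V)} (hG : ∀ E ∈ G, E.card ≤ s)
    (hP : ∀ L, Indp G L → L.card ≤ s → 3 / 4 * Zs lam G ∅ < Zs lam G L) (j : ℕ) :
    ∀ L : Finset V, L.Nonempty → ((EE G L j).card : ℝ) ≤ DD (lam / (1 + lam)) j := by
  set p := lam / (1 + lam) with hp
  have hp0 : 0 < p := by positivity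
  have hp1 : p ≤ 1 := by rw [hp, div_le_one (by linarith)]; linarith
  induction j with
  | zero =>
    intro L _
    have : EE G L 0 ⊆ {L} := by
      intro E hE
      obtain ⟨-, h1, h2⟩ := mem_filter.1 hE
      rw [card_eq_zero, sdiff_eq_empty_iff_subset] at h2
      exact mem_singleton.2 (Subset.antisymm h2 h1)
    have := card_le_card this
    simp only [card_singleton] at this
    simp only [DD]
    exact_mod_cast this
  | succ j ih =>
    intro L hL
    have hD := DD_nonneg hp0 j
    rcases (EE G L (j + 1)).eq_empty_or_nonempty with he | ⟨E0, hE0⟩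
    · rw [he]; simpa using DD_nonneg hp0 (j + 1)
    set d : ℝ := ((EE G L (j + 1)).card : ℝ) with hd
    have hd0 : 0 < d := by rw [hd]; exact_mod_cast card_pos.2 ⟨E0, hE0⟩
    have hmem : ∀ E ∈ EE G L (j + 1), E ∈ Gmin G ∧ L ⊆ E ∧ (E \ L).card = j + 1 :=
      fun E hE => mem_filter.1 hE
    have hLi : Indp G L := indp_of_ssubset (hmem E0 hE0).1 (hmem E0 hE0).2.1 fun h => by
      have := (hmem E0 hE0).2.2
      rw [sdiff_eq_empty_iff_subset.2 h] at this
      simp at this
    have hLs : L.card ≤ s :=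
      (card_le_card (hmem E0 hE0).2.1).trans (hG _ (mem_Gmin.1 (hmem E0 hE0).1).1)
    set Z := Zs lam G ∅ with hZ
    have hZ1 : 1 ≤ Z := one_le_Zs hl.le (hLi.mono (empty_subset L))
    have hM : ∀ E ∈ EE G L (j + 1), 3 / 4 * Z ≤ Zs lam G (E \ L) := by
      intro E hE
      refine (hP _ (indp_of_ssubset (hmem E hE).1 sdiff_subset fun h => ?_)
        ((card_le_card sdiff_subset).trans (hG _ (mem_Gmin.1 (hmem E hE).1).1))).le
      obtain ⟨v, hv⟩ := hL
      exact (mem_sdiff.1 (h ((hmem E hE).2.1 hv))).2 hv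
    set X : Finset V → ℝ := fun W => ∑ E ∈ EE G L (j + 1), ind (E \ L ⊆ W) with hX
    set a := d * p ^ (j + 1) with ha
    have ha0 : 0 < a := by positivity
    -- first moment
    have S1 : a * (3 / 4 * Z) ≤ ∑ W : Finset V, lam ^ W.card * (X W * ind (Indp G W)) := by
      have : ∑ W : Finset V, lam ^ W.card * (X W * ind (Indp G W)) =
          ∑ E ∈ EE G L (j + 1), p ^ (j + 1) * Zs lam G (E \ L) := by
        simp only [hX, sum_mul, mul_sum]
        rw [sum_comm]
        refine sum_congr rfl fun E hE => ?_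
        rw [sum_subset_mem hl (E \ L) (fun W => ind (Indp G W)), (hmem E hE).2.2]
        rfl
      rw [this]
      calc a * (3 / 4 * Z) = ∑ _E ∈ EE G L (j + 1), p ^ (j + 1) * (3 / 4 * Z) := by
            rw [sum_const, nsmul_eq_mul, ha, hd]; ring
        _ ≤ _ := sum_le_sum fun E hE => mul_le_mul_of_nonneg_left (hM E hE) (by positivity)
    -- second moment
    have hint : ∀ E ∈ EE G L (j + 1),
        ∑ E' ∈ EE G L (j + 1), ind (¬ Disjoint (E \ L) (E' \ L)) ≤ (j + 1) * DD p j := by
      intro E hE
      calc _ ≤ ∑ E' ∈ EE G L (j + 1), ∑ v ∈ E \ L, ind (v ∈ E' \ L) := by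
            refine sum_le_sum fun E' _ => ?_
            by_cases h : Disjoint (E \ L) (E' \ L)
            · rw [ind_false (not_not.2 h)]; exact sum_nonneg fun v _ => ind_nonneg _
            · rw [ind_true h]
              obtain ⟨v, hv, hv'⟩ := not_disjoint_iff.1 h
              rw [← ind_true hv']
              exact single_le_sum (f := fun v => ind (v ∈ E' \ L)) (fun v _ => ind_nonneg _) hv
        _ = ∑ v ∈ E \ L, ∑ E' ∈ EE G L (j + 1), ind (v ∈ E' \ L) := sum_comm
        _ ≤ ∑ _v ∈ E \ L, DD p j := by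
            refine sum_le_sum fun v _ => le_trans ?_ (ih (insert v L) (insert_nonempty v L))
            simp only [ind_eq_ite]
            rw [← sum_filter, sum_const, nsmul_eq_mul, mul_one]
            refine Nat.cast_le.2 (card_le_card fun E' hE' => ?_)
            obtain ⟨h1, h2⟩ := mem_filter.1 hE'
            refine mem_filter.2 ⟨(hmem E' h1).1, insert_subset (mem_sdiff.1 h2).1 (hmem E' h1).2.1,
              ?_⟩
            rw [sdiff_insert, card_erase_of_mem h2, (hmem E' h1).2.2]
            rfl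
        _ = _ := by rw [sum_const, (hmem E hE).2.2, nsmul_eq_mul]; push_cast; ring
    have S2 : ∑ W : Finset V, lam ^ W.card * (X W ^ 2 * ind (Indp G W)) ≤
        (a ^ 2 + a * ((j + 1) * DD p j)) * Z := by
      have : ∑ W : Finset V, lam ^ W.card * (X W ^ 2 * ind (Indp G W)) =
          ∑ E ∈ EE G L (j + 1), ∑ E' ∈ EE G L (j + 1),
            p ^ (E \ L ∪ E' \ L).card * Zs lam G (E \ L ∪ E' \ L) := by
        simp only [hX, sq, sum_mul, mul_sum]
        rw [sum_comm]
        refine sum_congr rfl fun E _ => ?_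
        rw [sum_comm]
        refine sum_congr rfl fun E' _ => ?_
        have := sum_subset_mem hl (E \ L ∪ E' \ L) (fun W => ind (Indp G W))
        rw [Zs, ← this]
        refine sum_congr rfl fun W _ => ?_
        rw [ind_congr union_subset_iff, ind_and]
        ring
      rw [this]
      calc _ ≤ ∑ E ∈ EE G L (j + 1), ∑ E' ∈ EE G L (j + 1),
            (p ^ (j + 1) * p ^ (j + 1) + ind (¬ Disjoint (E \ L) (E' \ L)) * p ^ (j + 1)) * Z := by
            refine sum_le_sum fun E hE => sum_le_sum fun E' hE' => ?_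
            refine mul_le_mul ?_ (Zs_le hl.le _ _) (Zs_nonneg hl.le _ _)
              (add_nonneg (by positivity) (mul_nonneg (ind_nonneg _) (by positivity)))
            by_cases h : Disjoint (E \ L) (E' \ L)
            · rw [card_union_of_disjoint h, (hmem E hE).2.2, (hmem E' hE').2.2, pow_add,
                ind_false (not_not.2 h)]
              simp
            · rw [ind_true h, one_mul]
              have : p ^ (E \ L ∪ E' \ L).card ≤ p ^ (j + 1) := by
                refine pow_le_pow_of_le_one hp0.le hp1 ?_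
                rw [← (hmem E hE).2.2]
                exact card_le_card subset_union_left
              have : 0 ≤ p ^ (j + 1) * p ^ (j + 1) := by positivity
              linarith
        _ ≤ ∑ _E ∈ EE G L (j + 1),
            (d * (p ^ (j + 1) * p ^ (j + 1)) + (j + 1) * DD p j * p ^ (j + 1)) * Z := by
            refine sum_le_sum fun E hE => ?_
            rw [← sum_mul, sum_add_distrib, sum_const, nsmul_eq_mul, ← sum_mul]
            refine mul_le_mul_of_nonneg_right (add_le_add le_rfl ?_) (by linarith)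
            exact mul_le_mul_of_nonneg_right (hint E hE) (by positivity)
        _ = _ := by rw [sum_const, nsmul_eq_mul, ← hd, ha]; ring
    have S0 : ∑ W : Finset V, lam ^ W.card *
        (2 * a * (X W * ind (Indp G W)) - X W ^ 2 * ind (Indp G W)) ≤
          a ^ 2 * (Z - Zs lam G L) := by
      rw [hZ, Zs, Zs, ← sum_sub_distrib, mul_sum]
      refine sum_le_sum fun W _ => ?_
      rw [union_empty, ← mul_sub, mul_left_comm (a ^ 2)]
      refine mul_le_mul_of_nonneg_left ?_ (pow_nonneg hl.le _)
      by_cases h : Indp G (W ∪ L)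
      · have hX0 : X W = 0 := sum_eq_zero fun E hE => ind_false fun hs =>
          h E (mem_Gmin.1 (hmem E hE).1).1 (by
            intro v hv
            by_cases hvL : v ∈ L
            · exact mem_union_right _ hvL
            · exact mem_union_left _ (hs (mem_sdiff.2 ⟨hv, hvL⟩)))
        rw [hX0, ind_true h, ind_true (h.mono subset_union_left)]
        simp
      · rw [ind_false h]
        have := ind_nonneg (Indp G W)
        nlinarith [mul_nonneg this (sq_nonneg (a - X W))]
    have hPL := hP L hLi hLs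
    simp only [mul_sub] at S0
    rw [sum_sub_distrib] at S0
    have e : ∑ W : Finset V, lam ^ W.card * (2 * a * (X W * ind (Indp G W))) =
        2 * a * ∑ W : Finset V, lam ^ W.card * (X W * ind (Indp G W)) := by
      rw [mul_sum]; exact sum_congr rfl fun W _ => by ring
    rw [e] at S0
    have key : a ≤ 4 * ((j + 1) * DD p j) := by
      by_contra hc
      push Not at hc
      have h1 : a ^ 2 * Zs lam G L ≥ a ^ 2 * (3 / 4 * Z) :=
        mul_le_mul_of_nonneg_left hPL.le (by positivity)
      have h2 := mul_le_mul_of_nonneg_left S1 (by positivity : 0 ≤ 2 * a)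
      have h3 : a * Z * (4 * ((j + 1) * DD p j)) < a * Z * a :=
        mul_lt_mul_of_pos_left hc (by positivity)
      nlinarith
    simp only [DD]
    rw [le_div_iff₀ (by positivity)]
    linarith

lemma card_Gmin_le {lam : ℝ} (hl : 0 < lam) {s : ℕ} {G : Finset (Finset V)}
    (hG : ∀ E ∈ G, E.card ≤ s) (h0 : Indp G ∅)
    (hP : ∀ L, Indp G L → L.card ≤ s → 3 / 4 * Zs lam G ∅ < Zs lam G L) :
    ((Gmin G).card : ℝ) ≤ (∑ j ∈ range s, DD (lam / (1 + lam)) j) * Fintype.card V := by
  have hsub : Gmin G ⊆ univ.biUnion (fun v : V => (range s).biUnion fun j => EE G {v} j) := by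
    intro E hE
    have hEG := (mem_Gmin.1 hE).1
    have hne : E.Nonempty := by
      rw [nonempty_iff_ne_empty]
      rintro rfl
      exact h0 _ hEG (Subset.refl _)
    obtain ⟨v, hv⟩ := hne
    refine mem_biUnion.2 ⟨v, mem_univ v, mem_biUnion.2 ⟨(E \ {v}).card, ?_,
      mem_filter.2 ⟨hE, singleton_subset_iff.2 hv, rfl⟩⟩⟩
    rw [mem_range, sdiff_singleton_eq_erase, card_erase_of_mem hv]
    have := hG E hEG
    have : 0 < E.card := card_pos.2 ⟨v, hv⟩
    omega
  have h1 : (Gmin G).card ≤ ∑ v : V, ∑ j ∈ range s, (EE G {v} j).card :=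
    (card_le_card hsub).trans (card_biUnion_le.trans (sum_le_sum fun v _ => card_biUnion_le))
  calc ((Gmin G).card : ℝ) ≤ ∑ v : V, ∑ j ∈ range s, ((EE G {v} j).card : ℝ) := by
        exact_mod_cast h1
    _ ≤ ∑ _v : V, ∑ j ∈ range s, DD (lam / (1 + lam)) j :=
        sum_le_sum fun v _ => sum_le_sum fun j _ => deg_le hl hG hP j {v} (singleton_nonempty v)
    _ = _ := by rw [sum_const, card_univ, nsmul_eq_mul, mul_comm]

end

end Crest.Agent.R291
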