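import Crest.Agent.R291.Cube

/-!
# R291/Width: a `k`-CNF has small correlation with `g ∘ par`
-/

set_option autoImplicit false

open Finset

namespace Crest.Agent.R291

noncomputable section

variable {t b : ℕ}

section

variable (vars : ℕ → Finset (Var t b)) (viol : ℕ → (Var t b → Bool) → Prop)

/-- Clause `i` is the first violated clause without live variables. -/
def First (x : Var t b → Bool) (T : Finset (Var t b)) (i : ℕ) : Prop :=
  viol i x ∧ Disjoint (vars i) T ∧ ∀ i' < i, Disjoint (vars i') T → ¬ viol i' x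

/-- Weighted number of terms of the expansion. -/
def VV (s : ℕ) (x : Var t b → Bool) : ℕ → Finset (Var t b) → ℝ
  | 0, T => (1 / 2) ^ T.card
  | c + 1, T => VV s x c T +
      ind (s < (vars c ∩ T).card ∧ First vars viol x (T \ vars c) c) * VV s x c (T \ vars c)

end

variable {vars : ℕ → Finset (Var t b)} {viol : ℕ → (Var t b → Bool) → Prop} {s : ℕ}

lemma VV_nonneg (x : Var t b → Bool) (c : ℕ) : ∀ T, 0 ≤ VV vars viol s x c T := by
  induction c with
  | zero => intro T; simp only [VV]; positivity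
  | succ c ih => intro T; exact add_nonneg (ih T) (mul_nonneg (ind_nonneg _) (ih _))

lemma VV_mono (x : Var t b → Bool) {c c' : ℕ} (h : c ≤ c') (T : Finset (Var t b)) :
    VV vars viol s x c T ≤ VV vars viol s x c' T := by
  induction h with
  | refl => exact le_rfl
  | step _ ih =>
    exact ih.trans (le_add_of_nonneg_right (mul_nonneg (ind_nonneg _) (VV_nonneg x _ _)))

lemma VV_eq (x : Var t b → Bool) (C : ℕ) (T : Finset (Var t b)) :
    VV vars viol s x C T = (1 / 2) ^ T.card + ∑ c ∈ range C,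
      ind (s < (vars c ∩ T).card ∧ First vars viol x (T \ vars c) c) *
        VV vars viol s x c (T \ vars c) := by
  induction C with
  | zero => simp [VV]
  | succ C ih => rw [sum_range_succ, ← add_assoc, ← ih]; rfl

lemma sum_First_le (x : Var t b → Bool) (T : Finset (Var t b)) (C : ℕ) :
    ∑ c ∈ range C, ind (First vars viol x T c) ≤ 1 := by
  by_cases h : ∃ c ∈ range C, First vars viol x T c
  · obtain ⟨c, hc, hF⟩ := h
    rw [sum_eq_single_of_mem c hc]
    · exact ind_le_one _
    · intro c' _ hne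
      refine ind_false fun hF' => ?_
      rcases lt_or_gt_of_ne hne with h | h
      · exact hF.2.2 c' h hF'.2.1 hF'.1
      · exact hF'.2.2 c h hF.2.1 hF.1
  · rw [sum_eq_zero fun c hc => ind_false fun hF => h ⟨c, hc, hF⟩]
    exact zero_le_one

/-- The signed expansion. -/
lemma expand (hs : 1 ≤ s) {g : (Fin t → Bool) → ℝ} {B : ℝ} (hg : Disc s g B)
    (hdep : ∀ i x x', (∀ v ∈ vars i, x' v = x v) → viol i x → viol i x') (c : ℕ) :
    ∀ (T : Finset (Var t b)), IsSel T → ∀ (Nar : Finset ℕ),
      (∀ i ∈ Nar, (vars i ∩ T).card ≤ s) → ∀ pre : (Var t b → Bool) → Prop,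
      (∀ x x', (∀ v, v ∉ T → x' v = x v) → pre x → pre x') →
      |∑ x, ind (pre x) * (ind ((∀ i ∈ Nar, ¬ viol i x) ∧ ∀ i < c, ¬ viol i x) * g (par x))| ≤
        B * ∑ x, ind (pre x) * VV vars viol s x c T := by
  have hB : 0 ≤ B := by
    have := hg (fun _ => True) (fun y hy => absurd trivial hy)
    exact (abs_nonneg _).trans this
  induction c with
  | zero =>
    intro T hT Nar hNar pre hpre
    refine pre_disc hs hg hT _ (fun x hx => ?_) pre hpre
    have : ∃ i ∈ Nar, viol i x := by
      by_contra hc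
      exact hx ⟨fun i hi hv => hc ⟨i, hi, hv⟩, fun i hi => absurd hi (Nat.not_lt_zero i)⟩
    obtain ⟨i, hi, hv⟩ := this
    exact ⟨vars i, hNar i hi, fun x' hx' h => h.1 i hi (hdep i x x' hx' hv)⟩
  | succ c ih =>
    intro T hT Nar hNar pre hpre
    by_cases hw : s < (vars c ∩ T).card
    · have h1 := ih T hT Nar hNar pre hpre
      have h2 := ih (T \ vars c) (hT.mono sdiff_subset) Nar
        (fun i hi => (card_le_card (inter_subset_inter_left sdiff_subset)).trans (hNar i hi))
        (fun x => pre x ∧ First vars viol x (T \ vars c) c) (by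
          rintro x x' hx ⟨hp, hv, hd, hlt⟩
          refine ⟨hpre x x' (fun v hv => hx v fun h => hv (mem_sdiff.1 h).1) hp,
            hdep c x x' (fun v hv => hx v fun h => (mem_sdiff.1 h).2 hv) hv, hd,
            fun i' hi' hd' hv' => hlt i' hi' hd' (hdep i' x' x (fun v hv => ?_) hv')⟩
          exact (hx v (disjoint_left.1 hd' hv)).symm)
      have e : ∑ x, ind (pre x) * (ind ((∀ i ∈ Nar, ¬ viol i x) ∧ ∀ i < c + 1, ¬ viol i x) *
            g (par x)) =
          ∑ x, ind (pre x) * (ind ((∀ i ∈ Nar, ¬ viol i x) ∧ ∀ i < c, ¬ viol i x) * g (par x)) -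
          ∑ x, ind (pre x ∧ First vars viol x (T \ vars c) c) *
            (ind ((∀ i ∈ Nar, ¬ viol i x) ∧ ∀ i < c, ¬ viol i x) * g (par x)) := by
        rw [← sum_sub_distrib]
        refine sum_congr rfl fun x _ => ?_
        rw [ind_and (pre x)]
        by_cases hA : (∀ i ∈ Nar, ¬ viol i x) ∧ ∀ i < c, ¬ viol i x
        · by_cases hv : viol c x
          · rw [ind_false (P := _ ∧ ∀ i < c + 1, ¬ viol i x)
              (fun h => h.2 c (Nat.lt_succ_self c) hv),
              ind_true (P := First vars viol x (T \ vars c) c)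
                ⟨hv, disjoint_sdiff, fun i' hi' _ => hA.2 i' hi'⟩]
            ring
          · rw [ind_true (P := _ ∧ ∀ i < c + 1, ¬ viol i x) ⟨hA.1, fun i hi => by
                rcases Nat.lt_succ_iff_lt_or_eq.1 hi with h | h
                · exact hA.2 i h
                · rw [h]; exact hv⟩, ind_true hA,
              ind_false (P := First vars viol x (T \ vars c) c) (fun h => hv h.1)]
            ring
        · rw [ind_false hA, ind_false (P := _ ∧ ∀ i < c + 1, ¬ viol i x)
            (fun h => hA ⟨h.1, fun i hi => h.2 i (Nat.lt_succ_of_lt hi)⟩)]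
          ring
      rw [e]
      refine (abs_sub _ _).trans ((add_le_add h1 h2).trans (le_of_eq ?_))
      rw [← mul_add, ← sum_add_distrib]
      congr 1
      refine sum_congr rfl fun x _ => ?_
      simp only [VV]
      rw [ind_and, ind_congr (and_iff_right hw)]
      ring
    · have h1 := ih T hT (insert c Nar) (fun i hi => by
        rcases mem_insert.1 hi with h | h
        · rw [h]; exact not_lt.1 hw
        · exact hNar i h) pre hpre
      have e : ∀ x, ((∀ i ∈ Nar, ¬ viol i x) ∧ ∀ i < c + 1, ¬ viol i x) ↔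
          ((∀ i ∈ insert c Nar, ¬ viol i x) ∧ ∀ i < c, ¬ viol i x) := by
        intro x
        simp only [forall_mem_insert, Nat.lt_succ_iff_lt_or_eq, or_imp, forall_and, forall_eq]
        tauto
      simp only [e]
      refine h1.trans (mul_le_mul_of_nonneg_left (sum_le_sum fun x _ => ?_) hB)
      exact mul_le_mul_of_nonneg_left (VV_mono x (Nat.le_succ c) T) (ind_nonneg _)

/-- The encoding step. -/
lemma encode_step {μ : ℝ} (hμ : 0 ≤ μ) (U : Finset (Var t b)) (Φ : Finset (Var t b) → ℝ)
    (hΦ : ∀ T, 0 ≤ Φ T) :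
    ∑ T ∈ Sel t b, μ ^ T.card * (ind (s < (U ∩ T).card) * Φ (T \ U)) ≤
      (∑ T ∈ Sel t b, μ ^ T.card * Φ T) *
        ∑ Y ∈ U.powerset.filter (fun Y => s < Y.card), μ ^ Y.card := by
  classical
  rw [sum_mul_sum, ← sum_product']
  have e : ∑ T ∈ Sel t b, μ ^ T.card * (ind (s < (U ∩ T).card) * Φ (T \ U)) =
      ∑ T ∈ (Sel t b).filter (fun T => s < (U ∩ T).card),
        μ ^ (T \ U).card * Φ (T \ U) * μ ^ (U ∩ T).card := by
    rw [sum_filter]
    refine sum_congr rfl fun T _ => ?_
    by_cases h : s < (U ∩ T).card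
    · rw [if_pos h, ind_true h, ← card_sdiff_add_card_inter T U, pow_add, inter_comm T U]
      ring
    · rw [if_neg h, ind_false h]; ring
  rw [e]
  have hinj : Set.InjOn (fun T : Finset (Var t b) => (T \ U, U ∩ T))
      ((Sel t b).filter (fun T => s < (U ∩ T).card) : Finset _) := by
    intro T _ T' _ h
    simp only [Prod.mk.injEq] at h
    rw [← sdiff_union_inter T U, ← sdiff_union_inter T' U, h.1, inter_comm T U, inter_comm T' U,
      h.2]
  rw [← sum_image (f := fun p : Finset (Var t b) × Finset (Var t b) =>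
    μ ^ p.1.card * Φ p.1 * μ ^ p.2.card) hinj]
  refine sum_le_sum_of_subset_of_nonneg ?_ fun p _ _ => ?_
  · intro p hp
    obtain ⟨T, hT, rfl⟩ := mem_image.1 hp
    rw [mem_filter, mem_Sel] at hT
    refine mem_product.2 ⟨mem_Sel.2 (hT.1.mono sdiff_subset), ?_⟩
    exact mem_filter.2 ⟨mem_powerset.2 inter_subset_left, hT.2⟩
  · have := hΦ p.1
    positivity

lemma weight_le {μ : ℝ} (hμ : 0 ≤ μ)
    (hε : ∀ i, ∑ Y ∈ (vars i).powerset.filter (fun Y => s < Y.card), μ ^ Y.card ≤ 1 / 2)
    (x : Var t b → Bool) (C : ℕ) :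
    ∑ T ∈ Sel t b, μ ^ T.card * VV vars viol s x C T ≤ 2 * (1 + b * (μ / 2)) ^ t := by
  set S := ∑ T ∈ Sel t b, μ ^ T.card * VV vars viol s x C T with hS
  have h0 : ∑ T ∈ Sel t b, μ ^ T.card * (1 / 2) ^ T.card = (1 + b * (μ / 2)) ^ t := by
    rw [← sum_Sel]
    refine sum_congr rfl fun T _ => ?_
    rw [← mul_pow]; congr 1; ring
  have h1 : S ≤ (1 + b * (μ / 2)) ^ t + ∑ c ∈ range C, (∑ T ∈ Sel t b, μ ^ T.card *
      (ind (First vars viol x T c) * VV vars viol s x C T)) * (1 / 2) := by
    have e : S = (1 + b * (μ / 2)) ^ t + ∑ c ∈ range C, ∑ T ∈ Sel t b, μ ^ T.card *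
        (ind (s < (vars c ∩ T).card) * (ind (First vars viol x (T \ vars c) c) *
          VV vars viol s x c (T \ vars c))) := by
      rw [← h0, sum_comm, ← sum_add_distrib, hS]
      refine sum_congr rfl fun T _ => ?_
      rw [VV_eq, mul_add, mul_sum]
      congr 1
      refine sum_congr rfl fun c _ => ?_
      rw [ind_and]; ring
    rw [e]
    refine add_le_add_right (sum_le_sum fun c hc => ?_) _
    refine (encode_step hμ (vars c) (fun T => ind (First vars viol x T c) * VV vars viol s x c T)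
      fun T => mul_nonneg (ind_nonneg _) (VV_nonneg x c T)).trans ?_
    refine mul_le_mul (sum_le_sum fun T _ => ?_) (hε c) (sum_nonneg fun Y _ => by positivity)
      (sum_nonneg fun T _ => mul_nonneg (by positivity)
        (mul_nonneg (ind_nonneg _) (VV_nonneg x C T)))
    exact mul_le_mul_of_nonneg_left (mul_le_mul_of_nonneg_left
      (VV_mono x (mem_range.1 hc).le T) (ind_nonneg _)) (by positivity)
  have h2 : ∑ c ∈ range C, (∑ T ∈ Sel t b, μ ^ T.card *
      (ind (First vars viol x T c) * VV vars viol s x C T)) ≤ S := by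
    rw [sum_comm, hS]
    refine sum_le_sum fun T _ => ?_
    rw [← mul_sum, ← sum_mul]
    refine mul_le_mul_of_nonneg_left ?_ (by positivity)
    calc _ ≤ 1 * VV vars viol s x C T :=
          mul_le_mul_of_nonneg_right (sum_First_le x T C) (VV_nonneg x C T)
      _ = _ := one_mul _
  rw [← sum_mul] at h1
  linarith

lemma tail_le {α : Type} [DecidableEq α] {μ : ℝ} (hμ : 0 ≤ μ) (U : Finset α) {k : ℕ}
    (hU : U.card ≤ k) (hk : (1 + 2 * μ) ^ k ≤ 2 ^ s) :
    ∑ Y ∈ U.powerset.filter (fun Y => s < Y.card), μ ^ Y.card ≤ 1 / 2 := by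
  have h1 : ∑ Y ∈ U.powerset, (2 * μ) ^ Y.card = (1 + 2 * μ) ^ U.card := by
    have := Finset.prod_one_add (f := fun _ : α => 2 * μ) U
    simp only [prod_const] at this
    exact this.symm
  have h2 : (2 : ℝ) ^ (s + 1) * ∑ Y ∈ U.powerset.filter (fun Y => s < Y.card), μ ^ Y.card ≤
      ∑ Y ∈ U.powerset, (2 * μ) ^ Y.card := by
    rw [mul_sum]
    calc _ ≤ ∑ Y ∈ U.powerset.filter (fun Y => s < Y.card), (2 * μ) ^ Y.card := by
          refine sum_le_sum fun Y hY => ?_
          rw [mul_pow]
          exact mul_le_mul_of_nonneg_right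
            (pow_le_pow_right₀ (by norm_num) (mem_filter.1 hY).2) (by positivity)
      _ ≤ _ := sum_le_sum_of_subset_of_nonneg (filter_subset _ _) fun Y _ _ => by positivity
  have h3 : (1 + 2 * μ) ^ U.card ≤ 2 ^ s :=
    (pow_le_pow_right₀ (by linarith) hU).trans hk
  have h4 : (0 : ℝ) < 2 ^ s := by positivity
  rw [h1, pow_succ] at h2
  nlinarith

/-- Correlation of a `k`-CNF with `g ∘ par`. -/
theorem width_reduction (hs : 1 ≤ s) {g : (Fin t → Bool) → ℝ} {B : ℝ} (hg : Disc s g B)
    (hdep : ∀ i x x', (∀ v ∈ vars i, x' v = x v) → viol i x → viol i x') {k : ℕ}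
    (hk : ∀ i, (vars i).card ≤ k) {μ : ℝ} (hμ : 0 ≤ μ) (hks : (1 + 2 * μ) ^ k ≤ 2 ^ s) (C : ℕ) :
    (1 + b * μ) ^ t * |∑ x, ind (∀ i < C, ¬ viol i x) * g (par x)| ≤
      B * (2 * (1 + b * (μ / 2)) ^ t) * 2 ^ (t * b) := by
  have hB : 0 ≤ B := by
    have := hg (fun _ => True) (fun y hy => absurd trivial hy)
    exact (abs_nonneg _).trans this
  rw [← sum_Sel, sum_mul]
  calc _ ≤ ∑ T ∈ Sel t b, μ ^ T.card * (B * ∑ x, VV vars viol s x C T) := by
        refine sum_le_sum fun T hT => mul_le_mul_of_nonneg_left ?_ (by positivity)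
        have := expand hs hg hdep C T (mem_Sel.1 hT) ∅ (by simp) (fun _ => True)
          (fun _ _ _ _ => trivial)
        simpa [ind_true] using this
    _ = B * ∑ x, ∑ T ∈ Sel t b, μ ^ T.card * VV vars viol s x C T := by
        rw [sum_comm, mul_sum]
        refine sum_congr rfl fun T _ => ?_
        rw [← mul_sum]; ring
    _ ≤ B * ∑ _x : Var t b → Bool, 2 * (1 + b * (μ / 2)) ^ t :=
        mul_le_mul_of_nonneg_left (sum_le_sum fun x _ =>
          weight_le hμ (fun i => tail_le hμ _ (hk i) hks) x C) hB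
    _ = _ := by
        rw [sum_const, card_univ, nsmul_eq_mul]
        simp only [Fintype.card_fun, Fintype.card_prod, Fintype.card_fin, Fintype.card_bool]
        push_cast; ring

end

end Crest.Agent.R291
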